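import Vale.Agent.P141.H677.GenM

/-!
# P141, line (A): the price of the node forms for one slot, bounded energy number

`H677.Sk.PriceM` for slots with energy number `E ≤ L + 3780000`; this is enough for `LeafM`, all the
generations of `H540.RG` have such a number.
-/

namespace Vale.Agent.P141.H939

open Finset Matrix
open Vale.Agent.P141.PL (Pt iv hs ix mem_iv ix_ix cb mem_cb cx card_iv)
open Vale.Agent.P141.PL.H315 (Tri avg)
open Vale.Agent.P141.H48 (US ES BSl sst)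
open Vale.Agent.P141.H795 (E8)
open Vale.Agent.P141.H401 (StX PartX Bun PartF)
open Vale.Agent.P141.H305 (ClsM kapM Cls)
open Vale.Agent.P141.H43 (nsq nsq_nonneg)
open Vale.Agent.P141.H540 (RG)
open Vale.Agent.P141.H677 Vale.Agent.P141.H677.Sk

noncomputable section

open scoped Classical

set_option linter.unusedSectionVars false

/-- **The price of a functional of slots on every plane of every grid**, slots `SlotN` with cap
`κ ≥ 1` and energy `0 < E ≤ L + 3780000`. -/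
def PriceB (D : Bun) (T : FunG) : Prop :=
  ∀ a : ℝ, 0 < a → a ≤ 1 →
  ∃ es : ℝ, 0 < es ∧ es ≤ 1 ∧ ∀ e0 : ℝ, 0 < e0 → e0 ≤ es →
  ∃ k8s : ℝ, 0 < k8s ∧ ∀ k8 : ℝ, 0 < k8 → k8 ≤ k8s →
  ∃ k3s : ℝ, 0 < k3s ∧ ∀ k3 : ℝ, 0 < k3 → k3 ≤ k3s →
  ∃ (p : ℕ) (θ w b c1 d1 : ℝ), 0 < θ ∧ 2 * w < e0 * θ ∧ 0 ≤ b ∧ 0 < c1 ∧ 0 < d1 ∧
  ∀ c : ℝ, 0 ≤ c → c ≤ c1 → ∀ d : ℝ, 0 < d → d ≤ d1 →
  ∀ Kt e cP L : ℝ, 0 < Kt → 1 ≤ e → 0 ≤ cP → 1 ≤ L → ∀ CD : ℝ, 1 ≤ CD → ∃ C : ℝ, 0 ≤ C ∧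
  ∀ t : ℝ, 0 < t → t ≤ 1 → ∀ (n : ℕ) (ez : ℝ) (F1 F2 F3 : ℕ → Pt → ℝ),
    US n (Kt * t ^ (1 - c)) e cP F1 → US n (Kt * t ^ (1 - c)) e cP F3 → ES n ez cP F2 →
  ∀ o : ℤ, o = 1 ∨ o = -1 → ∀ K ≤ n, ∀ (x : Pt) (ι : Type) [Fintype ι] [DecidableEq ι]
    (s r : ℝ) (U : Tri) (g : ℤ → ℤ → ℝ) (u v : ℤ → ℤ → ι → ℝ), 0 < s → 1 ≤ r →
    ClsM K x s r (L * t ^ (2 - c) * √s) (kapM L t a s r) U g u v →
    ∀ (A : FamA) (b' C' : FamV ι),
      D ι ⟨a, e0, k8, k3, c, d, Kt, e, cP, L, CD, t⟩ n ez F1 F2 F3 o K x s r U g u v A b' C' →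
    ∀ (R : Slt ι) (κ E : ℝ), 1 ≤ κ → 0 < E → E ≤ L + 3780000 →
      SlotN ((⟨a, e0, k8, k3, c, d, Kt, e, cP, L, CD, t⟩ : H401.Num).al U K) o K (cx K x)
        ((⟨a, e0, k8, k3, c, d, Kt, e, cP, L, CD, t⟩ : H401.Num).lam s r) u R κ E →
    ∀ h ∈ cb K 0, ∀ j ∈ Icc (0 : ℤ) 2, ∀ q ∈ E8, T ι K (cx K x) R A b' C' h j q ≤
      C * ((1 + Real.log κ + Real.log (r / t)) ^ p * E ^ θ *
        (t * (r / t) ^ w * t ^ (-(b * (c + d))) * s ^ (5 / 4 : ℝ) * √ez * 8 ^ K))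

/-- the price for every energy number -/
theorem priceB_of_M {D : Bun} {T : FunG} (H : PriceM D T) : PriceB D T := by
  intro a ha ha1
  obtain ⟨es, hes, hes1, H⟩ := H a ha ha1
  refine ⟨es, hes, hes1, fun e0 he0 he0' => ?_⟩
  obtain ⟨k8s, hk8s, H⟩ := H e0 he0 he0'
  refine ⟨k8s, hk8s, fun k8 hk8 hk8' => ?_⟩
  obtain ⟨k3s, hk3s, H⟩ := H k8 hk8 hk8'
  refine ⟨k3s, hk3s, fun k3 hk3 hk3' => ?_⟩
  obtain ⟨p, θ, w, b, c1, d1, hθ, hw, hb, hc1, hd1, H⟩ := H k3 hk3 hk3'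
  refine ⟨p, θ, w, b, c1, d1, hθ, hw, hb, hc1, hd1,
    fun c hc hcc d hd hdd Kt e cP L hK he hcP hL CD hCD => ?_⟩
  obtain ⟨C, hC, H⟩ := H c hc hcc d hd hdd Kt e cP L hK he hcP hL CD hCD
  refine ⟨C, hC, ?_⟩
  intro t ht ht1 n ez F1 F2 F3 h1 h3 h2 o ho K hKn x ι _ _ s r U g u v hs hr hcls A b' C' hD
    R κ E hκ hE _ hsl h hh j hj q hq
  exact H t ht ht1 n ez F1 F2 F3 h1 h3 h2 o ho K hKn x ι s r U g u v hs hr hcls A b' C' hD
    R κ E hκ hE hsl h hh j hj q hq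

/-- **The price on every plane, all the generations.** -/
theorem partG_of_priceB {D : Bun} {T : FunG} (hT : SubT T) (H : PriceB D T) : PartG D T := by
  refine H186.ClosX.partX_of_gain (Φ := fun ι _ _ p n ez F1 F2 F3 o K x s r U g u v B =>
    ∀ (A : FamA) (b C : FamV ι), D ι p n ez F1 F2 F3 o K x s r U g u v A b C →
      ∀ sg : ℕ → Pt → ℝ, (∀ k m, |sg k m| ≤ 1) → ∀ h ∈ cb K 0, ∀ j ∈ Icc (0 : ℤ) 2, ∀ e ∈ E8,
        T ι K (cx K x) (sl (p.al U K) o K (cx K x) sg (p.lam s r) u) A b C h j e ≤ B) ?_ ?_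
  · intro ι _ _ p n ez F1 F2 F3 o K x s r U g u v B B' hB h A b C hD sg hsg h' hh j hj e he
    exact (h A b C hD sg hsg h' hh j hj e he).trans hB
  intro a ha ha1
  obtain ⟨es, hes, hes1, H⟩ := H a ha ha1
  refine ⟨es, hes, fun e0 he0 he0' => ?_⟩
  obtain ⟨k8s, hk8s, H⟩ := H e0 he0 he0'
  refine ⟨k8s, hk8s, fun k8 hk8 hk8' => ?_⟩
  obtain ⟨k3s, hk3s, H⟩ := H k8 hk8 hk8'
  refine ⟨k3s, hk3s, fun k3 hk3 hk3' => ?_⟩
  obtain ⟨p, θ, w, b, c1, d1, hθ, hw, hb, hc1, hd1, H⟩ := H k3 hk3 hk3'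
  have he01 : e0 ≤ 1 := he0'.trans hes1
  refine ⟨e0 * θ / 2 - w, b, min c1 (e0 / 4), d1, by linarith, hb, lt_min hc1 (by linarith), hd1,
    fun c hc hcc d hd hdd Kt e cP L hK he hcP hL CD hCD => ?_⟩
  obtain ⟨C, hC, H⟩ := H c hc (hcc.trans (min_le_left _ _)) d hd hdd Kt e cP L hK he hcP hL CD hCD
  obtain ⟨C2, hC2, H2⟩ := H582.gen_price p hθ he0 he01 (A := 1) (B := 2) (C0 := 3780000)
    (Lc := L / 2) le_rfl (by norm_num) (by norm_num) (by linarith)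
  refine ⟨C * C2, by positivity, ?_⟩
  intro t ht ht1 n ez F1 F2 F3 h1 h3 h2 o ho K hKn x ι _ _ s r U g u v hs hr hcls A b' C' hD sg
    hsg h hh j hj q hq
  have hr0 : 0 < r := by linarith
  have hρ : 1 ≤ r / t := by
    rw [le_div_iff₀ ht]
    linarith
  have hρ0 : 0 < r / t := by linarith
  set N : H401.Num := ⟨a, e0, k8, k3, c, d, Kt, e, cP, L, CD, t⟩ with hN
  have hl : 0 < N.lam s r := H401.Num.lam_pos (p := N) ht hs hr
  have hm := m_eq (q := N) ht hs hr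
  have hlr := lam_row (q := N) ht ht1 he0 hs hr he01
  rw [Rg_sum _ _ _ _ _ _ _ (kg t r)]
  refine (hT ι K (cx K x) (range (K + 1)) _ A b' C' h j q).trans ?_
  have hκ1 : ∀ g, 1 ≤ kg t r g := fun g => by
    unfold kg
    have : (1 : ℝ) ≤ 2 ^ g := one_le_pow₀ (by norm_num)
    nlinarith
  have hE : ∀ g', 0 < eg (L / 2 * (t ^ (-c) * (t / r) ^ e0)) t r g' := by
    intro g'
    cases g' with
    | zero =>
      unfold eg
      have : 0 < (t / r) ^ e0 := Real.rpow_pos_of_pos (div_pos ht hr0) _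
      have h4 : 0 < t ^ (-c) := Real.rpow_pos_of_pos ht _
      have : 0 < L := by linarith
      positivity
    | succ g' =>
      unfold eg
      have : 0 < kg t r g' := by linarith [hκ1 g']
      positivity
  have hEb : ∀ g', eg (L / 2 * (t ^ (-c) * (t / r) ^ e0)) t r g' ≤ L + 3780000 := by
    intro g'
    cases g' with
    | zero =>
      unfold eg
      have b1 : (t / r) ^ e0 ≤ t ^ e0 :=
        Real.rpow_le_rpow (by positivity) (div_le_self ht.le hr) he0.le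
      have b2 : t ^ (-c) * (t / r) ^ e0 ≤ 1 := by
        have b3 : 0 < t ^ (-c) := Real.rpow_pos_of_pos ht _
        refine (mul_le_mul_of_nonneg_left b1 b3.le).trans ?_
        rw [← Real.rpow_add ht]
        exact Real.rpow_le_one ht.le ht1 (by linarith [hcc.trans (min_le_right c1 (e0 / 4))])
      nlinarith
    | succ g' =>
      unfold eg
      have b1 := hκ1 g'
      have b2 : (r / t) ^ 2 ≤ (kg t r g') ^ 6 := by
        have b3 : r / t ≤ kg t r g' := by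
          unfold kg
          have : (1 : ℝ) ≤ 2 ^ g' := one_le_pow₀ (by norm_num)
          nlinarith
        calc (r / t) ^ 2 ≤ (kg t r g') ^ 2 := pow_le_pow_left₀ hρ0.le b3 2
          _ ≤ (kg t r g') ^ 6 := pow_le_pow_right₀ b1 (by norm_num)
      have b4 : 0 < kg t r g' ^ 6 := by positivity
      have b5 : 3780000 * (r / t) ^ 2 / kg t r g' ^ 6 ≤ 3780000 := by
        rw [div_le_iff₀ b4]
        nlinarith
      linarith
  have hone : ∀ g' ∈ range (K + 1), T ι K (cx K x)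
      (Rg (N.al U K) o K (cx K x) sg (N.lam s r) u (kg t r) g') A b' C' h j q ≤
      C * (t * (r / t) ^ w * t ^ (-(b * (c + d))) * s ^ (5 / 4 : ℝ) * √ez * 8 ^ K) *
        ((1 + Real.log (kg t r g' + 1) + Real.log (r / t)) ^ p *
          eg (L / 2 * (t ^ (-c) * (t / r) ^ e0)) t r g' ^ θ) := by
    intro g' _
    have hsl := slotN_RG hcls ht ht1 hr hs hl hlr (Al := N.al U K) ho hsg g'
    have e5 : L * t ^ (2 - c) * √s / (2 * N.lam s r) = L / 2 * (t ^ (-c) * (t / r) ^ e0) := hm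
    rw [e5] at hsl
    have h6 := H t ht ht1 n ez F1 F2 F3 h1 h3 h2 o ho K hKn x ι s r U g u v hs hr hcls A b' C' hD
      _ _ _ (by linarith [hκ1 g']) (hE g') (hEb g') hsl h hh j hj q hq
    refine h6.trans (le_of_eq ?_)
    ring
  refine (sum_le_sum hone).trans ?_
  rw [← mul_sum]
  have h7 := H2 c hc (hcc.trans (min_le_right _ _)) t ht ht1 r hr
    (eg (L / 2 * (t ^ (-c) * (t / r) ^ e0)) t r)
    (fun g' => 1 + Real.log (kg t r g' + 1) + Real.log (r / t)) (fun g' => (hE g').le)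
    (fun g' => ?_) (fun g' => ?_) (le_of_eq rfl) (fun g' => ?_) K
  · have h8 : 0 ≤ C * (t * (r / t) ^ w * t ^ (-(b * (c + d))) * s ^ (5 / 4 : ℝ) * √ez * 8 ^ K) := by
      have : 0 ≤ √ez := Real.sqrt_nonneg _
      positivity
    refine (mul_le_mul_of_nonneg_left h7 h8).trans (le_of_eq ?_)
    have e6 : (r / t) ^ w = (t / r) ^ (-w) := by
      rw [Real.rpow_neg (by positivity), ← Real.inv_rpow (by positivity), inv_div]
    have e7 : t ^ (e0 * θ / 2) * r ^ (-(e0 * θ / 2)) = (t / r) ^ (e0 * θ / 2) := by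
      rw [Real.div_rpow ht.le hr0.le, Real.rpow_neg hr0.le]
      rfl
    have e8 : (t / r) ^ (e0 * θ / 2 - w) = (t / r) ^ (-w) * (t / r) ^ (e0 * θ / 2) := by
      rw [← Real.rpow_add (div_pos ht hr0)]
      congr 1
      ring
    rw [e6, e7, e8]
    ring
  · have h9 := hκ1 g'
    have h10 := Real.log_nonneg (by linarith : (1 : ℝ) ≤ kg t r g' + 1)
    have h11 := Real.log_nonneg hρ
    linarith
  · have h9 := hκ1 g'
    have h12 : kg t r g' + 1 ≤ (r / t) * 2 ^ (g' + 1) := by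
      unfold kg at h9 ⊢
      rw [pow_succ]
      linarith
    have h13 : Real.log (kg t r g' + 1) ≤ Real.log (r / t) + (g' + 1) := by
      refine (Real.log_le_log (by linarith) h12).trans ?_
      rw [Real.log_mul hρ0.ne' (by positivity), Real.log_pow]
      have h14 : Real.log 2 ≤ 1 := by
        have := Real.log_two_lt_d9
        linarith
      have h15 : (0 : ℝ) ≤ ((g' + 1 : ℕ) : ℝ) := by positivity
      have h16 : ((g' + 1 : ℕ) : ℝ) * Real.log 2 ≤ ((g' + 1 : ℕ) : ℝ) * 1 :=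
        mul_le_mul_of_nonneg_left h14 h15
      push_cast at h16 ⊢
      linarith
    have h17 : (0 : ℝ) ≤ (g' : ℝ) := Nat.cast_nonneg _
    linarith
  · show 3780000 * (r / t) ^ 2 / (kg t r g') ^ 6 ≤ 3780000 * (r / t) ^ 2 / ((r / t) ^ (1 : ℝ) * 2 ^ g') ^ 6
    rw [Real.rpow_one]
    rfl

/-- **The node forms of the flow part from the price for one slot, bounded energy number.** -/
theorem leafM_of_priceB (H : PriceB FD fun _ι _ _ K M R A b C h j e => FM1 K M R A b C h j e) :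
    LeafM :=
  leafM_of (partG_of_priceB subT_FM1 H)

end

end Vale.Agent.P141.H939
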