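import Vale.Agent.P141.H70.Proc
import Vale.Agent.P141.H70.Lazy

/-!
# P141, CE: the removal rule, heavy rows first, then directions

On a square `iv k m1 × iv k m2` (`x` the pivot vertex, `y` the other one) the rule removes from the
current function

* the rows `y` with `∑_{x} ‖g x y‖² > K 2 ^ k` (`hv`), what is left is the light part `li`;
* for every `x` the projection of the light part onto a system `ds x` of vectors with
  `w 2 ^ k rank ≤ ∑_y ‖P_x (li x y)‖²`, such that the rest has potential at most `2 w 2 ^ k`.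

The process removes both together iff their mass is at least `m0 (mass + s 4 ^ k)`.
-/

namespace Vale.Agent.P141.H939

open Finset
open Vale.Agent.P141.PL (iv ix mem_iv self_mem_iv card_iv)
open Vale.Agent.P141.H971 (qf nrg opn qf_nonneg nrg_nonneg opn_le qf_le_opn opn_nonneg opn_congr
  le_opn mass mass_nonneg sqs mass_split)
open Vale.Agent.P141.H70 (Ons prj sys2 rk ons_sys2 rk_sys2 opn_sys2 sum_sys2_le sys2_congr Rul Thr
  Orth az EvA ra az_top az_eq az_succ az_eq_sum az_of_not ra_of ra_of_not prjL)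

noncomputable section

set_option linter.unusedSectionVars false

variable {V : Type*} [NormedAddCommGroup V] [InnerProductSpace ℝ V]

/-! ### rows -/

/-- The mass of the row `y` over the pivots of `iv k m1`. -/
def row (k : ℕ) (m1 : ℤ) (g : ℤ → ℤ → V) (y : ℤ) : ℝ := ∑ x ∈ iv k m1, ‖g x y‖ ^ 2

theorem row_nonneg (k : ℕ) (m1 : ℤ) (g : ℤ → ℤ → V) (y : ℤ) : 0 ≤ row k m1 g y :=
  sum_nonneg fun _ _ => sq_nonneg _

/-- Heavy rows. -/
def Hvy (K : ℝ) (k : ℕ) (m1 : ℤ) (g : ℤ → ℤ → V) (y : ℤ) : Prop := K * 2 ^ k < row k m1 g y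

open Classical in
/-- The part on the heavy rows. -/
def hv (K : ℝ) (k : ℕ) (m1 : ℤ) (g : ℤ → ℤ → V) (x y : ℤ) : V :=
  if Hvy K k m1 g y then g x y else 0

open Classical in
/-- The part on the light rows. -/
def li (K : ℝ) (k : ℕ) (m1 : ℤ) (g : ℤ → ℤ → V) (x y : ℤ) : V :=
  if Hvy K k m1 g y then 0 else g x y

theorem hv_add_li (K : ℝ) (k : ℕ) (m1 : ℤ) (g : ℤ → ℤ → V) (x y : ℤ) :
    hv K k m1 g x y + li K k m1 g x y = g x y := by
  unfold hv li
  split_ifs
  · exact add_zero _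
  · exact zero_add _

theorem norm_hv_le (K : ℝ) (k : ℕ) (m1 : ℤ) (g : ℤ → ℤ → V) (x y : ℤ) :
    ‖hv K k m1 g x y‖ ≤ ‖g x y‖ := by
  unfold hv
  split_ifs
  · exact le_rfl
  · rw [norm_zero]; exact norm_nonneg _

theorem norm_li_le (K : ℝ) (k : ℕ) (m1 : ℤ) (g : ℤ → ℤ → V) (x y : ℤ) :
    ‖li K k m1 g x y‖ ≤ ‖g x y‖ := by
  unfold li
  split_ifs
  · rw [norm_zero]; exact norm_nonneg _
  · exact le_rfl

/-- One of the two parts vanishes. -/
theorem hv_or_li (K : ℝ) (k : ℕ) (m1 : ℤ) (g : ℤ → ℤ → V) (y : ℤ) :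
    (∀ x, hv K k m1 g x y = 0) ∨ ∀ x, li K k m1 g x y = 0 := by
  by_cases h : Hvy K k m1 g y
  · right; intro x; unfold li; rw [if_pos h]
  · left; intro x; unfold hv; rw [if_neg h]

/-- The rows of the light part. -/
theorem row_li_le {K : ℝ} (hK : 0 ≤ K) (k : ℕ) (m1 : ℤ) (g : ℤ → ℤ → V) (y : ℤ) :
    row k m1 (li K k m1 g) y ≤ K * 2 ^ k := by
  unfold row li
  by_cases h : Hvy K k m1 g y
  · simp only [if_pos h, norm_zero]
    rw [sum_const]
    simp only [ne_eq, OfNat.ofNat_ne_zero, not_false_eq_true, zero_pow, nsmul_zero]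
    positivity
  · simp only [if_neg h]
    exact not_lt.mp h

open Classical in
/-- The heavy rows in an interval. -/
def Ys (K : ℝ) (k : ℕ) (m1 m2 : ℤ) (g : ℤ → ℤ → V) : Finset ℤ :=
  (iv k m2).filter fun y => Hvy K k m1 g y

/-- The mass of the part on the heavy rows. -/
theorem mass_hv (K : ℝ) (k : ℕ) (m1 m2 : ℤ) (g : ℤ → ℤ → V) :
    mass (iv k m1) (iv k m2) (hv K k m1 g) = ∑ y ∈ Ys K k m1 m2 g, row k m1 g y := by
  classical
  unfold mass
  rw [sum_comm]
  unfold Ys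
  rw [sum_filter]
  refine sum_congr rfl fun y _ => ?_
  unfold row hv
  by_cases h : Hvy K k m1 g y
  · simp only [if_pos h]
  · simp only [if_neg h, norm_zero, ne_eq, OfNat.ofNat_ne_zero, not_false_eq_true, zero_pow,
      sum_const_zero]

/-- **Few heavy rows.** -/
theorem card_Ys_le (K : ℝ) (k : ℕ) (m1 m2 : ℤ) (g : ℤ → ℤ → V) :
    K * 2 ^ k * (Ys K k m1 m2 g).card ≤ mass (iv k m1) (iv k m2) (hv K k m1 g) := by
  classical
  rw [mass_hv]
  calc K * 2 ^ k * (Ys K k m1 m2 g).card = ∑ _y ∈ Ys K k m1 m2 g, K * 2 ^ k := by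
        rw [sum_const, nsmul_eq_mul]; ring
    _ ≤ _ := sum_le_sum fun y hy => (mem_filter.mp hy).2.le

/-- **The rows of a gauge over the heavy rows.** `d` bounds the rows of `h` over `C`. -/
theorem sum_Ys_le {K d : ℝ} (k : ℕ) (m1 m2 : ℤ) (g : ℤ → ℤ → V) (C : Finset ℤ)
    (h : ℤ → ℤ → ℝ) (hh : ∀ y ∈ iv k m2, ∑ z ∈ C, h y z ^ 2 ≤ d) :
    K * 2 ^ k * ∑ y ∈ Ys K k m1 m2 g, ∑ z ∈ C, h y z ^ 2 ≤
      d * mass (iv k m1) (iv k m2) (hv K k m1 g) := by
  classical
  rw [mass_hv, mul_sum, mul_sum]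
  refine sum_le_sum fun y hy => ?_
  have hy' := mem_filter.mp hy
  have h0 : 0 ≤ ∑ z ∈ C, h y z ^ 2 := sum_nonneg fun _ _ => sq_nonneg _
  have h1 := hh y hy'.1
  calc K * 2 ^ k * ∑ z ∈ C, h y z ^ 2 ≤ row k m1 g y * ∑ z ∈ C, h y z ^ 2 :=
        mul_le_mul_of_nonneg_right hy'.2.le h0
    _ ≤ row k m1 g y * d := mul_le_mul_of_nonneg_left h1 (row_nonneg _ _ _ _)
    _ = _ := mul_comm _ _

/-! ### the rule -/

/-- The removed directions. -/
def ds (n : ℕ) (K w : ℝ) (k : ℕ) (m1 m2 : ℤ) (g : ℤ → ℤ → V) (x : ℤ) : Fin n → V :=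
  sys2 n (w * 2 ^ k) (iv k m2) (li K k m1 g x)

/-- The part along the removed directions. -/
def dp (n : ℕ) (K w : ℝ) (k : ℕ) (m1 m2 : ℤ) (g : ℤ → ℤ → V) (x y : ℤ) : V :=
  prj (ds n K w k m1 m2 g x) (li K k m1 g x y)

/-- **The rule**: heavy rows, then directions. -/
def ruL (n : ℕ) (K w : ℝ) : Rul V := fun k m1 m2 g x y =>
  hv K k m1 g x y + dp n K w k m1 m2 g x y

/-- What the rule leaves. -/
def lf (n : ℕ) (K w : ℝ) (k : ℕ) (m1 m2 : ℤ) (g : ℤ → ℤ → V) (x y : ℤ) : V :=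
  li K k m1 g x y - dp n K w k m1 m2 g x y

/-- **The threshold.** -/
def thL (m0 s : ℝ) : Thr V := fun k m1 m2 g => m0 * (mass (iv k m1) (iv k m2) g + s * 4 ^ k)

section rule

variable (n : ℕ) (K w : ℝ) (k : ℕ) (m1 m2 : ℤ) (g : ℤ → ℤ → V)

theorem ons_ds (x : ℤ) : Ons (ds n K w k m1 m2 g x) := ons_sys2 _ _ _ _

theorem ds_zero (x : ℤ) (h : ∀ y ∈ iv k m2, li K k m1 g x y = 0) (i : Fin n) :
    (inner ℝ (ds n K w k m1 m2 g x i) (ds n K w k m1 m2 g x i) : ℝ) = 0 :=
  H70.inner_sys2 (fun y hy => by rw [h y hy, inner_zero_left]) i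

theorem sub_ruL (x y : ℤ) : g x y - ruL n K w k m1 m2 g x y = lf n K w k m1 m2 g x y := by
  unfold ruL lf
  rw [← sub_sub]
  congr 1
  nth_rewrite 1 [← hv_add_li K k m1 g x y]
  rw [add_sub_cancel_left]

theorem parts (x y : ℤ) : hv K k m1 g x y + dp n K w k m1 m2 g x y + lf n K w k m1 m2 g x y =
    g x y := by
  have h := sub_ruL n K w k m1 m2 g x y
  rw [← h]
  show ruL n K w k m1 m2 g x y + _ = _
  abel

theorem dp_of_li {x y : ℤ} (h : li K k m1 g x y = 0) : dp n K w k m1 m2 g x y = 0 := by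
  unfold dp
  rw [h]
  unfold prj
  simp

/-- The directions part is orthogonal to everything which is left, in the whole square. -/
theorem inner_dp_lf (x y y' : ℤ) :
    (inner ℝ (dp n K w k m1 m2 g x y) (lf n K w k m1 m2 g x y') : ℝ) = 0 := by
  unfold dp lf dp
  have ho := ons_ds n K w k m1 m2 g x
  rw [inner_sub_right, ho.inner_prj_prj, H70.prj_inner, sub_self]

theorem inner_hv_li (x y : ℤ) :
    (inner ℝ (hv K k m1 g x y) (li K k m1 g x y) : ℝ) = 0 := by
  rcases hv_or_li K k m1 g y with h | h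
  · rw [h x, inner_zero_left]
  · rw [h x, inner_zero_right]

theorem inner_hv_dp (x y : ℤ) :
    (inner ℝ (hv K k m1 g x y) (dp n K w k m1 m2 g x y) : ℝ) = 0 := by
  rcases hv_or_li K k m1 g y with h | h
  · rw [h x, inner_zero_left]
  · rw [dp_of_li n K w k m1 m2 g (h x), inner_zero_right]

theorem inner_hv_lf (x y : ℤ) :
    (inner ℝ (hv K k m1 g x y) (lf n K w k m1 m2 g x y) : ℝ) = 0 := by
  unfold lf
  rw [inner_sub_right, inner_hv_li, inner_hv_dp, sub_zero]

/-- **The rule is orthogonal.** -/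
theorem orth_ruL : Orth (ruL (V := V) n K w) := by
  intro k m1 m2 g x _ y _
  rw [sub_ruL]
  unfold ruL
  rw [inner_add_left, inner_hv_lf, inner_dp_lf, add_zero]

theorem norm_dp_le (x y : ℤ) : ‖dp n K w k m1 m2 g x y‖ ≤ ‖g x y‖ :=
  ((ons_ds n K w k m1 m2 g x).norm_prj_le _).trans (norm_li_le K k m1 g x y)

theorem norm_lf_le_li (x y : ℤ) : ‖lf n K w k m1 m2 g x y‖ ≤ ‖li K k m1 g x y‖ :=
  (ons_ds n K w k m1 m2 g x).norm_sub_le _

theorem norm_lf_le (x y : ℤ) : ‖lf n K w k m1 m2 g x y‖ ≤ ‖g x y‖ :=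
  (norm_lf_le_li n K w k m1 m2 g x y).trans (norm_li_le K k m1 g x y)

/-- Pythagoras for the three parts. -/
theorem pyth3 (x y : ℤ) : ‖g x y‖ ^ 2 = ‖hv K k m1 g x y‖ ^ 2 +
    ‖dp n K w k m1 m2 g x y‖ ^ 2 + ‖lf n K w k m1 m2 g x y‖ ^ 2 := by
  have e := parts n K w k m1 m2 g x y
  have h1 := inner_hv_dp n K w k m1 m2 g x y
  have h2 := inner_hv_lf n K w k m1 m2 g x y
  have h3 := inner_dp_lf n K w k m1 m2 g x y y
  have h : ‖g x y‖ ^ 2 = ‖hv K k m1 g x y + dp n K w k m1 m2 g x y +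
      lf n K w k m1 m2 g x y‖ ^ 2 := by rw [e]
  rw [h, norm_add_sq_real, norm_add_sq_real, inner_add_left, h1, h2, h3]
  ring

theorem norm_ruL_sq (x y : ℤ) : ‖ruL n K w k m1 m2 g x y‖ ^ 2 =
    ‖hv K k m1 g x y‖ ^ 2 + ‖dp n K w k m1 m2 g x y‖ ^ 2 := by
  unfold ruL
  rw [norm_add_sq_real, inner_hv_dp]
  ring

/-- The removed mass. -/
theorem mass_ruL (A B : Finset ℤ) : mass A B (ruL n K w k m1 m2 g) =
    mass A B (hv K k m1 g) + mass A B (dp n K w k m1 m2 g) := by
  unfold mass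
  rw [← sum_add_distrib]
  refine sum_congr rfl fun x _ => ?_
  rw [← sum_add_distrib]
  exact sum_congr rfl fun y _ => norm_ruL_sq n K w k m1 m2 g x y

/-- The rows of what is left. -/
theorem row_lf_le (hK : 0 ≤ K) (y : ℤ) : row k m1 (lf n K w k m1 m2 g) y ≤ K * 2 ^ k := by
  refine le_trans ?_ (row_li_le hK k m1 g y)
  exact sum_le_sum fun x _ => pow_le_pow_left₀ (norm_nonneg _)
    (norm_lf_le_li n K w k m1 m2 g x y) 2

/-- **The potential of what is left.** -/
theorem opn_lf_le (hw : 0 < w) {M : ℝ} (x : ℤ) (hg : ∀ y ∈ iv k m2, ‖g x y‖ ^ 2 ≤ M)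
    (hM : M ≤ w * n) : opn (iv k m2) (lf n K w k m1 m2 g x) ≤ 2 * w * 2 ^ k := by
  have h1 : nrg (iv k m2) (li K k m1 g x) ≤ w * 2 ^ k * n := by
    unfold nrg
    calc ∑ y ∈ iv k m2, ‖li K k m1 g x y‖ ^ 2 ≤ ∑ _y ∈ iv k m2, M :=
          sum_le_sum fun y hy => (pow_le_pow_left₀ (norm_nonneg _)
            (norm_li_le K k m1 g x y) 2).trans (hg y hy)
      _ = 2 ^ k * M := by
          rw [sum_const, nsmul_eq_mul, card_iv]; push_cast; ring
      _ ≤ 2 ^ k * (w * n) := mul_le_mul_of_nonneg_left hM (by positivity)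
      _ = _ := by ring
  have h2 := opn_sys2 (n := n) (a := w * 2 ^ k) (by positivity) h1
  refine h2.trans (le_of_eq ?_)
  ring

/-- **The rank** of the removed directions at every `x`. -/
theorem rk_ds_le (x : ℤ) : w * 2 ^ k * rk (ds n K w k m1 m2 g x) ≤
    ∑ y ∈ iv k m2, ‖dp n K w k m1 m2 g x y‖ ^ 2 := rk_sys2 _ _ _ _

/-- The energy of a second function along the removed directions, for every `x`. -/
theorem sum_ds_le (hw : 0 < w) (x : ℤ) (C : Finset ℤ) (v : ℤ → V) {κ : ℝ} (hκ : opn C v ≤ κ) :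
    w * 2 ^ k * ∑ z ∈ C, ‖prj (ds n K w k m1 m2 g x) (v z)‖ ^ 2 ≤
      κ * ∑ y ∈ iv k m2, ‖dp n K w k m1 m2 g x y‖ ^ 2 := by
  have h := sum_sys2_le (n := n) (a := w * 2 ^ k) (by positivity) (iv k m2)
    (li K k m1 g x) C v hκ
  refine (le_of_eq ?_).trans h
  congr 1
  exact sum_congr rfl fun z _ => (ons_ds n K w k m1 m2 g x).norm_prj_sq (v z)

/-- The same, summed over the pivots: **the slab of `P v` against the removed mass**. -/
theorem slab_ds_le (hw : 0 < w) (C : Finset ℤ) (v : ℤ → ℤ → V) {κ : ℝ}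
    (hκ : ∀ x ∈ iv k m1, opn C (v x) ≤ κ) :
    w * 2 ^ k * ∑ x ∈ iv k m1, ∑ z ∈ C, ‖prj (ds n K w k m1 m2 g x) (v x z)‖ ^ 2 ≤
      κ * mass (iv k m1) (iv k m2) (dp n K w k m1 m2 g) := by
  unfold mass
  rw [mul_sum, mul_sum]
  exact sum_le_sum fun x hx => sum_ds_le n K w k m1 m2 g hw x C (v x) (hκ x hx)

end rule

/-! ### the process -/

/-- The parameters: number of directions per event, row threshold, potential threshold, mass
threshold, reference mass, top scale. -/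
structure Par where
  n : ℕ
  K : ℝ
  w : ℝ
  m0 : ℝ
  s : ℝ
  N : ℕ

/-- The conditions on the parameters (for functions bounded by one). -/
structure Par.Ok (p : Par) : Prop where
  K0 : 0 ≤ p.K
  w0 : 0 < p.w
  m00 : 0 ≤ p.m0
  s0 : 0 ≤ p.s
  wn : 1 ≤ p.w * p.n

section proc

variable (p : Par) (u : ℤ → ℤ → V)

/-- **The process**: `uc p u (N + 1) = u`. -/
def uc (k : ℕ) : ℤ → ℤ → V := az (ruL p.n p.K p.w) (thL p.m0 p.s) p.N u k

/-- The events. -/
def Ev (k : ℕ) (m1 m2 : ℤ) : Prop := EvA (ruL p.n p.K p.w) (thL p.m0 p.s) p.N u k m1 m2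

theorem ev_iff (k : ℕ) (m1 m2 : ℤ) : Ev p u k m1 m2 ↔ k ≤ p.N ∧
    p.m0 * (mass (iv k m1) (iv k m2) (uc p u (k + 1)) + p.s * 4 ^ k) ≤
      mass (iv k m1) (iv k m2) (hv p.K k m1 (uc p u (k + 1))) +
        mass (iv k m1) (iv k m2) (dp p.n p.K p.w k m1 m2 (uc p u (k + 1))) := by
  unfold Ev EvA
  rw [mass_ruL]
  exact Iff.rfl

open Classical in
/-- The removed heavy rows: zero off the events. -/
def rY (k : ℕ) (x y : ℤ) : V :=
  if Ev p u k (ix k x) (ix k y) then hv p.K k (ix k x) (uc p u (k + 1)) x y else 0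

open Classical in
/-- The part removed along the directions: zero off the events. -/
def rP (k : ℕ) (x y : ℤ) : V :=
  if Ev p u k (ix k x) (ix k y) then dp p.n p.K p.w k (ix k x) (ix k y) (uc p u (k + 1)) x y
  else 0

open Classical in
/-- The heavy rows which are left in: zero after an event. -/
def hY (k : ℕ) (x y : ℤ) : V :=
  if Ev p u k (ix k x) (ix k y) then 0 else hv p.K k (ix k x) (uc p u (k + 1)) x y

open Classical in
/-- The part along the directions which is left in: zero after an event. -/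
def hP (k : ℕ) (x y : ℤ) : V :=
  if Ev p u k (ix k x) (ix k y) then 0
  else dp p.n p.K p.w k (ix k x) (ix k y) (uc p u (k + 1)) x y

/-- The part with light rows and small potential. -/
def lo (k : ℕ) (x y : ℤ) : V :=
  lf p.n p.K p.w k (ix k x) (ix k y) (uc p u (k + 1)) x y

/-- The function after the removal of the rows, before the removal of the directions. -/
def um (k : ℕ) (x y : ℤ) : V := uc p u (k + 1) x y - rY p u k x y

open Classical in
/-- The removed directions: zero off the events. -/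
def dE (k : ℕ) (m1 m2 x : ℤ) : Fin p.n → V :=
  if Ev p u k m1 m2 then ds p.n p.K p.w k m1 m2 (uc p u (k + 1)) x else fun _ => 0

open Classical in
/-- The removed rows of a square: empty off the events. -/
def YE (k : ℕ) (m1 m2 : ℤ) : Finset ℤ :=
  if Ev p u k m1 m2 then Ys p.K k m1 m2 (uc p u (k + 1)) else ∅

theorem uc_top {k : ℕ} (hk : p.N + 1 ≤ k) : uc p u k = u := az_top _ _ _ _ hk

theorem ra_eq (k : ℕ) (x y : ℤ) :
    ra (ruL p.n p.K p.w) (thL p.m0 p.s) p.N u k x y = rY p u k x y + rP p u k x y := by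
  unfold rY rP
  by_cases h : Ev p u k (ix k x) (ix k y)
  · rw [if_pos h, if_pos h, ra_of _ _ _ _ h]; rfl
  · rw [if_neg h, if_neg h, ra_of_not _ _ _ _ h, add_zero]

/-- **One step.** -/
theorem uc_succ (k : ℕ) (x y : ℤ) :
    uc p u (k + 1) x y = uc p u k x y + (rY p u k x y + rP p u k x y) := by
  rw [← ra_eq]
  exact az_succ _ _ _ _ k x y

theorem um_eq (k : ℕ) (x y : ℤ) : um p u k x y = uc p u k x y + rP p u k x y := by
  unfold um
  rw [uc_succ]; abel

/-- All the steps. -/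
theorem uc_eq_sum {k l : ℕ} (hkl : k ≤ l) (x y : ℤ) :
    uc p u l x y = uc p u k x y + ∑ j ∈ Ico k l, (rY p u j x y + rP p u j x y) := by
  unfold uc
  rw [az_eq_sum _ _ _ _ hkl]
  congr 1
  exact sum_congr rfl fun j _ => ra_eq p u j x y

theorem uc_of_not {k : ℕ} {x y : ℤ} (h : ¬ Ev p u k (ix k x) (ix k y)) :
    uc p u k x y = uc p u (k + 1) x y := az_of_not _ _ _ _ h

theorem rY_of_not {k : ℕ} {x y : ℤ} (h : ¬ Ev p u k (ix k x) (ix k y)) : rY p u k x y = 0 := by
  unfold rY; rw [if_neg h]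

theorem rP_of_not {k : ℕ} {x y : ℤ} (h : ¬ Ev p u k (ix k x) (ix k y)) : rP p u k x y = 0 := by
  unfold rP; rw [if_neg h]

/-- **The decomposition at every scale.** -/
theorem uc_parts (k : ℕ) (x y : ℤ) :
    uc p u k x y = hY p u k x y + hP p u k x y + lo p u k x y := by
  have e := parts p.n p.K p.w k (ix k x) (ix k y) (uc p u (k + 1)) x y
  have h0 := uc_succ p u k x y
  unfold hY hP lo
  unfold rY rP at h0
  by_cases h : Ev p u k (ix k x) (ix k y)
  · rw [if_pos h, if_pos h] at h0 ⊢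
    rw [add_zero, zero_add]
    rw [← e] at h0
    have h1 : lf p.n p.K p.w k (ix k x) (ix k y) (uc p u (k + 1)) x y =
        (hv p.K k (ix k x) (uc p u (k + 1)) x y +
          dp p.n p.K p.w k (ix k x) (ix k y) (uc p u (k + 1)) x y +
          lf p.n p.K p.w k (ix k x) (ix k y) (uc p u (k + 1)) x y) -
        (hv p.K k (ix k x) (uc p u (k + 1)) x y +
          dp p.n p.K p.w k (ix k x) (ix k y) (uc p u (k + 1)) x y) := by abel
    rw [h1, h0, add_sub_cancel_right]
  · rw [if_neg h, if_neg h, e]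
    exact uc_of_not p u h

theorem uc_of_ev {k : ℕ} {x y : ℤ} (h : Ev p u k (ix k x) (ix k y)) :
    uc p u k x y = lo p u k x y := by
  rw [uc_parts]
  unfold hY hP
  rw [if_pos h, if_pos h, add_zero, zero_add]

/-! #### sizes and orthogonality -/

theorem norm_uc_mono {k l : ℕ} (hkl : k ≤ l) (x y : ℤ) : ‖uc p u k x y‖ ≤ ‖uc p u l x y‖ :=
  H70.norm_az_mono _ _ _ (orth_ruL p.n p.K p.w) hkl x y

theorem norm_uc_le (k : ℕ) (x y : ℤ) : ‖uc p u k x y‖ ≤ ‖u x y‖ :=
  H70.norm_az_le _ _ _ (orth_ruL p.n p.K p.w) k x y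

theorem norm_hY_le (k : ℕ) (x y : ℤ) : ‖hY p u k x y‖ ≤ ‖u x y‖ := by
  unfold hY
  split_ifs
  · rw [norm_zero]; exact norm_nonneg _
  · exact (norm_hv_le _ _ _ _ _ _).trans (norm_uc_le p u _ x y)

theorem norm_hP_le (k : ℕ) (x y : ℤ) : ‖hP p u k x y‖ ≤ ‖u x y‖ := by
  unfold hP
  split_ifs
  · rw [norm_zero]; exact norm_nonneg _
  · exact (norm_dp_le _ _ _ _ _ _ _ _ _).trans (norm_uc_le p u _ x y)

theorem norm_rY_le (k : ℕ) (x y : ℤ) : ‖rY p u k x y‖ ≤ ‖u x y‖ := by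
  unfold rY
  split_ifs
  · exact (norm_hv_le _ _ _ _ _ _).trans (norm_uc_le p u _ x y)
  · rw [norm_zero]; exact norm_nonneg _

theorem norm_rP_le (k : ℕ) (x y : ℤ) : ‖rP p u k x y‖ ≤ ‖u x y‖ := by
  unfold rP
  split_ifs
  · exact (norm_dp_le _ _ _ _ _ _ _ _ _).trans (norm_uc_le p u _ x y)
  · rw [norm_zero]; exact norm_nonneg _

theorem norm_lo_le (k : ℕ) (x y : ℤ) : ‖lo p u k x y‖ ≤ ‖u x y‖ :=
  (norm_lf_le _ _ _ _ _ _ _ _ _).trans (norm_uc_le p u _ x y)

/-- The part which is left is at most the current value. -/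
theorem norm_lo_le_uc (k : ℕ) (x y : ℤ) : ‖lo p u k x y‖ ≤ ‖uc p u k x y‖ := by
  by_cases h : Ev p u k (ix k x) (ix k y)
  · rw [uc_of_ev p u h]
  · rw [uc_of_not p u h]
    exact norm_lf_le _ _ _ _ _ _ _ _ _

theorem norm_um_le (k : ℕ) (x y : ℤ) : ‖um p u k x y‖ ≤ ‖uc p u (k + 1) x y‖ := by
  unfold um rY
  split_ifs
  · have h := hv_add_li p.K k (ix k x) (uc p u (k + 1)) x y
    have e : uc p u (k + 1) x y - hv p.K k (ix k x) (uc p u (k + 1)) x y =
        li p.K k (ix k x) (uc p u (k + 1)) x y := by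
      rw [sub_eq_iff_eq_add, ← h]; abel
    rw [e]
    exact norm_li_le _ _ _ _ _ _
  · rw [sub_zero]

/-- The directions part which is left in is orthogonal to the rest, **in the whole square**. -/
theorem inner_hP_lo (k : ℕ) {x y y' : ℤ} (hy : ix k y = ix k y') :
    (inner ℝ (hP p u k x y) (lo p u k x y') : ℝ) = 0 := by
  unfold hP lo
  split_ifs
  · exact inner_zero_left _
  · rw [hy]
    exact inner_dp_lf _ _ _ _ _ _ _ _ _ _

/-- The removed part along the directions is orthogonal to the new value, in the whole square. -/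
theorem inner_rP_uc (k : ℕ) {x y y' : ℤ} (hy : ix k y = ix k y') :
    (inner ℝ (rP p u k x y) (uc p u k x y') : ℝ) = 0 := by
  unfold rP
  split_ifs with h
  · rw [hy] at h
    rw [uc_of_ev p u h]
    unfold lo
    rw [hy]
    exact inner_dp_lf _ _ _ _ _ _ _ _ _ _
  · exact inner_zero_left _

/-- On the removed rows the new value vanishes. -/
theorem uc_of_row {k : ℕ} {x y : ℤ} (h : rY p u k x y ≠ 0) : uc p u k x y = 0 := by
  unfold rY at h
  by_cases he : Ev p u k (ix k x) (ix k y)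
  · rw [if_pos he] at h
    rw [uc_of_ev p u he]
    have hl : li p.K k (ix k x) (uc p u (k + 1)) x y = 0 := by
      rcases hv_or_li p.K k (ix k x) (uc p u (k + 1)) y with h1 | h1
      · exact absurd (h1 x) h
      · exact h1 x
    unfold lo lf
    rw [hl, dp_of_li _ _ _ _ _ _ _ hl, sub_zero]
  · rw [if_neg he] at h
    exact absurd rfl h

/-- Pythagoras for one step. -/
theorem pyth_uc (k : ℕ) (x y : ℤ) : ‖uc p u (k + 1) x y‖ ^ 2 =
    ‖uc p u k x y‖ ^ 2 + (‖rY p u k x y‖ ^ 2 + ‖rP p u k x y‖ ^ 2) := by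
  by_cases h : Ev p u k (ix k x) (ix k y)
  · rw [uc_of_ev p u h, pyth3 p.n p.K p.w k (ix k x) (ix k y) (uc p u (k + 1)) x y]
    unfold rY rP lo
    rw [if_pos h, if_pos h]
    ring
  · rw [uc_of_not p u h, rY_of_not p u h, rP_of_not p u h, norm_zero]
    ring

/-- All the removed parts at a point. -/
theorem sum_removed_le (k : ℕ) (x y : ℤ) :
    ∑ j ∈ Ico k (p.N + 1), (‖rY p u j x y‖ ^ 2 + ‖rP p u j x y‖ ^ 2) ≤ ‖u x y‖ ^ 2 := by
  rcases Nat.lt_or_ge (p.N + 1) k with h | h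
  · rw [Ico_eq_empty (by omega), sum_empty]; exact sq_nonneg _
  · have key : ∀ l, k ≤ l → ‖uc p u k x y‖ ^ 2 +
        ∑ j ∈ Ico k l, (‖rY p u j x y‖ ^ 2 + ‖rP p u j x y‖ ^ 2) = ‖uc p u l x y‖ ^ 2 := by
      intro l hl
      induction l, hl using Nat.le_induction with
      | base => rw [Ico_self, sum_empty, add_zero]
      | succ l hl ih => rw [sum_Ico_succ_top hl, ← add_assoc, ih, pyth_uc]
    have h1 := key _ h
    rw [uc_top p u le_rfl] at h1
    have h2 := sq_nonneg ‖uc p u k x y‖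
    linarith

/-! #### masses, rows, potentials on the squares of the same scale -/

theorem mass_hY_hP (k : ℕ) (hk : k ≤ p.N) (m1 m2 : ℤ) (hp : p.Ok) :
    mass (iv k m1) (iv k m2) (hY p u k) + mass (iv k m1) (iv k m2) (hP p u k) ≤
      p.m0 * (mass (iv k m1) (iv k m2) (uc p u k) + p.s * 4 ^ k) := by
  classical
  have hpos : 0 ≤ p.m0 * (mass (iv k m1) (iv k m2) (uc p u k) + p.s * 4 ^ k) :=
    mul_nonneg hp.m00 (add_nonneg (mass_nonneg _ _ _) (mul_nonneg hp.s0 (by positivity)))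
  by_cases h : Ev p u k m1 m2
  · have h1 : mass (iv k m1) (iv k m2) (hY p u k) = 0 := by
      unfold mass
      refine sum_eq_zero fun x hx => sum_eq_zero fun y hy => ?_
      rw [mem_iv] at hx hy
      subst hx; subst hy
      unfold hY
      rw [if_pos h, norm_zero]; ring
    have h2 : mass (iv k m1) (iv k m2) (hP p u k) = 0 := by
      unfold mass
      refine sum_eq_zero fun x hx => sum_eq_zero fun y hy => ?_
      rw [mem_iv] at hx hy
      subst hx; subst hy
      unfold hP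
      rw [if_pos h, norm_zero]; ring
    rw [h1, h2, add_zero]
    exact hpos
  · have e0 : mass (iv k m1) (iv k m2) (uc p u k) =
        mass (iv k m1) (iv k m2) (uc p u (k + 1)) := by
      unfold mass
      refine sum_congr rfl fun x hx => sum_congr rfl fun y hy => ?_
      rw [mem_iv] at hx hy
      subst hx; subst hy
      rw [uc_of_not p u h]
    have e1 : mass (iv k m1) (iv k m2) (hY p u k) =
        mass (iv k m1) (iv k m2) (hv p.K k m1 (uc p u (k + 1))) := by
      unfold mass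
      refine sum_congr rfl fun x hx => sum_congr rfl fun y hy => ?_
      rw [mem_iv] at hx hy
      subst hx; subst hy
      unfold hY
      rw [if_neg h]
    have e2 : mass (iv k m1) (iv k m2) (hP p u k) =
        mass (iv k m1) (iv k m2) (dp p.n p.K p.w k m1 m2 (uc p u (k + 1))) := by
      unfold mass
      refine sum_congr rfl fun x hx => sum_congr rfl fun y hy => ?_
      rw [mem_iv] at hx hy
      subst hx; subst hy
      unfold hP
      rw [if_neg h]
    rw [e0, e1, e2]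
    by_contra hcon
    exact h ((ev_iff p u k m1 m2).2 ⟨hk, (not_le.mp hcon).le⟩)

theorem mass_hY (k : ℕ) (hk : k ≤ p.N) (m1 m2 : ℤ) (hp : p.Ok) :
    mass (iv k m1) (iv k m2) (hY p u k) ≤
      p.m0 * (mass (iv k m1) (iv k m2) (uc p u k) + p.s * 4 ^ k) := by
  have h := mass_hY_hP p u k hk m1 m2 hp
  have h1 := mass_nonneg (iv k m1) (iv k m2) (hP p u k)
  linarith

theorem mass_hP (k : ℕ) (hk : k ≤ p.N) (m1 m2 : ℤ) (hp : p.Ok) :
    mass (iv k m1) (iv k m2) (hP p u k) ≤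
      p.m0 * (mass (iv k m1) (iv k m2) (uc p u k) + p.s * 4 ^ k) := by
  have h := mass_hY_hP p u k hk m1 m2 hp
  have h1 := mass_nonneg (iv k m1) (iv k m2) (hY p u k)
  linarith

/-- **The rows of the light part.** -/
theorem row_lo (k : ℕ) (m1 : ℤ) (y : ℤ) (hp : p.Ok) :
    ∑ x ∈ iv k m1, ‖lo p u k x y‖ ^ 2 ≤ p.K * 2 ^ k := by
  refine le_trans (le_of_eq ?_) (row_lf_le p.n p.K p.w k m1 (ix k y) (uc p u (k + 1)) hp.K0 y)
  unfold row
  refine sum_congr rfl fun x hx => ?_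
  rw [mem_iv] at hx
  subst hx
  rfl

/-- **The potential of the light part**, at EVERY pivot. -/
theorem opn_lo (k : ℕ) (m2 x : ℤ) (hp : p.Ok) (hu : ∀ y ∈ iv k m2, ‖u x y‖ ≤ 1) :
    opn (iv k m2) (lo p u k x) ≤ 2 * p.w * 2 ^ k := by
  have h := opn_lf_le p.n p.K p.w k (ix k x) m2 (uc p u (k + 1)) hp.w0 (M := 1) x
    (fun y hy => pow_le_one₀ (norm_nonneg _) ((norm_uc_le p u _ x y).trans (hu y hy))) hp.wn
  refine (le_of_eq ?_).trans h
  refine opn_congr fun y hy => ?_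
  rw [mem_iv] at hy
  unfold lo
  rw [hy]

/-! #### smaller squares: the value before the treatment -/

theorem iv_sub {k l : ℕ} (hkl : k ≤ l) (m : ℤ) : iv k m ⊆ iv l (ix (l - k) m) :=
  H70.iv_sub_iv hkl rfl

/-- The value of the scale `l` on the squares of a smaller scale `k`: what is left in. -/
theorem mass_hY_hP_fine {k l : ℕ} (hkl : k ≤ l) (hl : l ≤ p.N) (m1 m2 : ℤ) (hp : p.Ok) :
    mass (iv k m1) (iv k m2) (hY p u l) + mass (iv k m1) (iv k m2) (hP p u l) ≤
      p.m0 * (mass (iv l (ix (l - k) m1)) (iv l (ix (l - k) m2)) (uc p u l) + p.s * 4 ^ l) := by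
  refine le_trans (add_le_add ?_ ?_)
    (mass_hY_hP p u l hl (ix (l - k) m1) (ix (l - k) m2) hp)
  · exact H70.mass_mono (iv_sub hkl m1) (iv_sub hkl m2) _
  · exact H70.mass_mono (iv_sub hkl m1) (iv_sub hkl m2) _

theorem row_lo_fine {k l : ℕ} (hkl : k ≤ l) (m1 : ℤ) (y : ℤ) (hp : p.Ok) :
    ∑ x ∈ iv k m1, ‖lo p u l x y‖ ^ 2 ≤ p.K * 2 ^ l :=
  (sum_le_sum_of_subset_of_nonneg (iv_sub hkl m1) fun _ _ _ => sq_nonneg _).trans
    (row_lo p u l _ y hp)

theorem opn_lo_fine {k l : ℕ} (hkl : k ≤ l) (m2 x : ℤ) (hp : p.Ok) (hu : ∀ y, ‖u x y‖ ≤ 1) :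
    opn (iv k m2) (lo p u l x) ≤ 2 * p.w * 2 ^ l :=
  (H70.opn_mono (iv_sub hkl m2) _).trans (opn_lo p u l _ x hp fun y _ => hu y)

/-! #### packing -/

/-- **Mass balance**: the removed masses. -/
theorem mass_balance_uc {L : ℕ} (R S : ℤ) {k l : ℕ} (hkl : k ≤ l) (hl : l ≤ L + 1) :
    mass (iv L R) (iv L S) (uc p u k) + ∑ j ∈ Ico k l, ∑ m ∈ sqs L R S j,
      (mass (iv j m.1) (iv j m.2) (rY p u j) + mass (iv j m.1) (iv j m.2) (rP p u j)) =
      mass (iv L R) (iv L S) (uc p u l) := by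
  have h := H70.mass_balance_az (thL p.m0 p.s) p.N u (orth_ruL p.n p.K p.w) R S hkl hl
  refine Eq.trans ?_ h
  unfold uc
  congr 1
  refine sum_congr rfl fun j _ => sum_congr rfl fun m _ => ?_
  unfold mass
  rw [← sum_add_distrib]
  refine sum_congr rfl fun x _ => ?_
  rw [← sum_add_distrib]
  refine sum_congr rfl fun y _ => ?_
  have h1 := pyth_uc p u j x y
  have h2 := H70.pyth_az (thL p.m0 p.s) p.N u (orth_ruL (V := V) p.n p.K p.w) j x y
  unfold uc at h1
  linarith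

/-- At an event the removed mass is at least the threshold. -/
theorem le_removed {k : ℕ} {m1 m2 : ℤ} (h : Ev p u k m1 m2) :
    p.m0 * (mass (iv k m1) (iv k m2) (uc p u (k + 1)) + p.s * 4 ^ k) ≤
      mass (iv k m1) (iv k m2) (rY p u k) + mass (iv k m1) (iv k m2) (rP p u k) := by
  have h1 := ((ev_iff p u k m1 m2).1 h).2
  refine h1.trans (le_of_eq ?_)
  unfold mass
  congr 1
  · refine sum_congr rfl fun x hx => sum_congr rfl fun y hy => ?_
    rw [mem_iv] at hx hy
    subst hx; subst hy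
    unfold rY
    rw [if_pos h]
  · refine sum_congr rfl fun x hx => sum_congr rfl fun y hy => ?_
    rw [mem_iv] at hx hy
    subst hx; subst hy
    unfold rP
    rw [if_pos h]

open Classical in
/-- **Packing of the events** in every square `(L; R, S)`. -/
theorem packing {L : ℕ} (R S : ℤ) {k l : ℕ} (hkl : k ≤ l) (hl : l ≤ L + 1) :
    p.m0 * ∑ j ∈ Ico k l, ∑ m ∈ (sqs L R S j).filter (fun q => Ev p u j q.1 q.2),
      (mass (iv j m.1) (iv j m.2) (uc p u (j + 1)) + p.s * 4 ^ j) ≤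
      mass (iv L R) (iv L S) (uc p u l) - mass (iv L R) (iv L S) (uc p u k) := by
  have h := mass_balance_uc p u R S hkl hl
  have h2 : p.m0 * ∑ j ∈ Ico k l, ∑ m ∈ (sqs L R S j).filter (fun q => Ev p u j q.1 q.2),
      (mass (iv j m.1) (iv j m.2) (uc p u (j + 1)) + p.s * 4 ^ j) ≤
      ∑ j ∈ Ico k l, ∑ m ∈ sqs L R S j,
        (mass (iv j m.1) (iv j m.2) (rY p u j) + mass (iv j m.1) (iv j m.2) (rP p u j)) := by
    rw [mul_sum]
    refine sum_le_sum fun j _ => ?_
    rw [mul_sum]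
    refine (sum_le_sum fun m hm => ?_).trans
      (sum_le_sum_of_subset_of_nonneg (filter_subset _ _) fun m _ _ =>
        add_nonneg (mass_nonneg _ _ _) (mass_nonneg _ _ _))
    exact le_removed p u (mem_filter.mp hm).2
  linarith

/-- The mass never grows. -/
theorem mass_uc_le (A B : Finset ℤ) (k : ℕ) : mass A B (uc p u k) ≤ mass A B u :=
  sum_le_sum fun x _ => sum_le_sum fun y _ =>
    pow_le_pow_left₀ (norm_nonneg _) (norm_uc_le p u k x y) 2

theorem mass_uc_mono (A B : Finset ℤ) {k l : ℕ} (hkl : k ≤ l) :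
    mass A B (uc p u k) ≤ mass A B (uc p u l) :=
  sum_le_sum fun x _ => sum_le_sum fun y _ =>
    pow_le_pow_left₀ (norm_nonneg _) (norm_uc_mono p u hkl x y) 2

open Classical in
/-- **Packing**, the area and the masses of the events together. -/
theorem packing_root {L : ℕ} (R S : ℤ) (k : ℕ) :
    p.m0 * ∑ j ∈ Ico k (L + 1), ∑ m ∈ (sqs L R S j).filter (fun q => Ev p u j q.1 q.2),
      (mass (iv j m.1) (iv j m.2) (uc p u (j + 1)) + p.s * 4 ^ j) ≤
      mass (iv L R) (iv L S) u := by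
  rcases Nat.lt_or_ge (L + 1) k with h | h
  · rw [Ico_eq_empty (by omega), sum_empty, mul_zero]
    exact mass_nonneg _ _ _
  · have h1 := packing p u R S h le_rfl
    have h2 := mass_nonneg (iv L R) (iv L S) (uc p u k)
    have h3 := mass_uc_le p u (iv L R) (iv L S) (L + 1)
    linarith

/-- **The removed masses add up to at most the mass.** -/
theorem removed_root {L : ℕ} (R S : ℤ) (k : ℕ) :
    ∑ j ∈ Ico k (L + 1), ∑ m ∈ sqs L R S j,
      (mass (iv j m.1) (iv j m.2) (rY p u j) + mass (iv j m.1) (iv j m.2) (rP p u j)) ≤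
      mass (iv L R) (iv L S) u := by
  rcases Nat.lt_or_ge (L + 1) k with h | h
  · rw [Ico_eq_empty (by omega), sum_empty]
    exact mass_nonneg _ _ _
  · have h1 := mass_balance_uc p u R S h (le_refl (L + 1))
    have h2 := mass_nonneg (iv L R) (iv L S) (uc p u k)
    have h3 := mass_uc_le p u (iv L R) (iv L S) (L + 1)
    linarith

open Classical in
/-- The area of the events. -/
theorem area_root {L : ℕ} (R S : ℤ) (k : ℕ) (hp : p.Ok) :
    p.m0 * p.s * ∑ j ∈ Ico k (L + 1),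
      ∑ _m ∈ (sqs L R S j).filter (fun q => Ev p u j q.1 q.2), (4 : ℝ) ^ j ≤
      mass (iv L R) (iv L S) u := by
  refine le_trans ?_ (packing_root p u R S k)
  rw [mul_assoc]
  refine mul_le_mul_of_nonneg_left ?_ hp.m00
  rw [mul_sum]
  refine sum_le_sum fun j _ => ?_
  rw [mul_sum]
  refine sum_le_sum fun m _ => ?_
  have := mass_nonneg (iv j m.1) (iv j m.2) (uc p u (j + 1))
  linarith

/-! #### the removed pieces -/

theorem ons_dE (k : ℕ) (m1 m2 x : ℤ) : Ons (dE p u k m1 m2 x) := by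
  unfold dE
  split_ifs
  · exact ons_ds _ _ _ _ _ _ _ _
  · exact Ons.zero

/-- The removed part along the directions is a projection of the function without the removed
rows. -/
theorem rP_eq (k : ℕ) (x y : ℤ) :
    rP p u k x y = prj (dE p u k (ix k x) (ix k y) x) (um p u k x y) := by
  unfold rP dE um rY
  by_cases h : Ev p u k (ix k x) (ix k y)
  · rw [if_pos h, if_pos h, if_pos h]
    have e : uc p u (k + 1) x y - hv p.K k (ix k x) (uc p u (k + 1)) x y =
        li p.K k (ix k x) (uc p u (k + 1)) x y := by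
      have h := hv_add_li p.K k (ix k x) (uc p u (k + 1)) x y
      rw [sub_eq_iff_eq_add, ← h]; abel
    rw [e]; rfl
  · rw [if_neg h, if_neg h]
    unfold prj
    simp

/-- **The step in the linear form**: `uc k = (1 - P) (uc (k + 1) - rows)`. -/
theorem uc_eq_prj (k : ℕ) (x y : ℤ) :
    uc p u k x y = um p u k x y - prj (dE p u k (ix k x) (ix k y) x) (um p u k x y) := by
  rw [← rP_eq, um_eq, add_sub_cancel_right]

open Classical in
/-- The removed rows are the restriction to `YE`. -/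
theorem rY_eq (k : ℕ) (x y : ℤ) :
    rY p u k x y = if y ∈ YE p u k (ix k x) (ix k y) then uc p u (k + 1) x y else 0 := by
  unfold rY YE
  by_cases h : Ev p u k (ix k x) (ix k y)
  · rw [if_pos h, if_pos h]
    unfold hv Ys
    by_cases h2 : Hvy p.K k (ix k x) (uc p u (k + 1)) y
    · rw [if_pos h2, if_pos (mem_filter.mpr ⟨self_mem_iv k y, h2⟩)]
    · rw [if_neg h2, if_neg fun hm => h2 (mem_filter.mp hm).2]
  · rw [if_neg h, if_neg h, if_neg (notMem_empty y)]

open Classical in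
theorem um_eq_ite (k : ℕ) (x y : ℤ) :
    um p u k x y = if y ∈ YE p u k (ix k x) (ix k y) then 0 else uc p u (k + 1) x y := by
  unfold um
  rw [rY_eq]
  split_ifs
  · exact sub_self _
  · exact sub_zero _

theorem YE_sub (k : ℕ) (m1 m2 : ℤ) : YE p u k m1 m2 ⊆ iv k m2 := by
  classical
  unfold YE
  split_ifs
  · exact filter_subset _ _
  · exact empty_subset _

/-- **Few removed rows.** -/
theorem card_YE_le (k : ℕ) (m1 m2 : ℤ) :
    p.K * 2 ^ k * (YE p u k m1 m2).card ≤ mass (iv k m1) (iv k m2) (rY p u k) := by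
  unfold YE
  by_cases h : Ev p u k m1 m2
  · rw [if_pos h]
    refine (card_Ys_le p.K k m1 m2 (uc p u (k + 1))).trans (le_of_eq ?_)
    unfold mass
    refine sum_congr rfl fun x hx => sum_congr rfl fun y hy => ?_
    rw [mem_iv] at hx hy
    subst hx; subst hy
    unfold rY
    rw [if_pos h]
  · rw [if_neg h, card_empty]
    simp only [Nat.cast_zero, mul_zero]
    exact mass_nonneg _ _ _

/-- **The gauge on the removed rows**, `d` a bound of its rows over `C`. -/
theorem sum_YE_le {d : ℝ} (k : ℕ) (m1 m2 : ℤ) (C : Finset ℤ) (h : ℤ → ℤ → ℝ)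
    (hh : ∀ y ∈ iv k m2, ∑ z ∈ C, h y z ^ 2 ≤ d) :
    p.K * 2 ^ k * ∑ y ∈ YE p u k m1 m2, ∑ z ∈ C, h y z ^ 2 ≤
      d * mass (iv k m1) (iv k m2) (rY p u k) := by
  unfold YE
  by_cases he : Ev p u k m1 m2
  · rw [if_pos he]
    refine (sum_Ys_le k m1 m2 (uc p u (k + 1)) C h hh).trans (le_of_eq ?_)
    congr 1
    unfold mass
    refine sum_congr rfl fun x hx => sum_congr rfl fun y hy => ?_
    rw [mem_iv] at hx hy
    subst hx; subst hy
    unfold rY
    rw [if_pos he]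
  · rw [if_neg he, sum_empty, mul_zero]
    have hd : mass (iv k m1) (iv k m2) (rY p u k) = 0 := by
      unfold mass
      refine sum_eq_zero fun x hx => sum_eq_zero fun y hy => ?_
      rw [mem_iv] at hx hy
      subst hx; subst hy
      rw [rY_of_not p u he, norm_zero]; ring
    rw [hd, mul_zero]

/-- **The rank** of the removed directions, for every pivot. -/
theorem rk_dE_le (k : ℕ) {m1 m2 x : ℤ} (hx : x ∈ iv k m1) :
    p.w * 2 ^ k * rk (dE p u k m1 m2 x) ≤ ∑ y ∈ iv k m2, ‖rP p u k x y‖ ^ 2 := by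
  classical
  rw [mem_iv] at hx
  subst hx
  unfold dE
  by_cases h : Ev p u k (ix k x) m2
  · rw [if_pos h]
    refine (rk_ds_le p.n p.K p.w k (ix k x) m2 (uc p u (k + 1)) x).trans (le_of_eq ?_)
    refine sum_congr rfl fun y hy => ?_
    rw [mem_iv] at hy
    subst hy
    unfold rP
    rw [if_pos h]
  · rw [if_neg h]
    have h4 : rk (fun _ : Fin p.n => (0 : V)) = 0 := by
      unfold rk
      rw [card_eq_zero, filter_eq_empty_iff]
      intro i _
      simp
    rw [h4]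
    simp only [Nat.cast_zero, mul_zero]
    exact sum_nonneg fun _ _ => sq_nonneg _

/-- **The slab of `P v`** against the removed mass: for every pivot. -/
theorem sum_dE_le (k : ℕ) {m1 m2 x : ℤ} (hx : x ∈ iv k m1) (C : Finset ℤ) (v : ℤ → V) {κ : ℝ}
    (hκ : opn C v ≤ κ) :
    p.w * 2 ^ k * ∑ z ∈ C, ‖prj (dE p u k m1 m2 x) (v z)‖ ^ 2 ≤
      κ * ∑ y ∈ iv k m2, ‖rP p u k x y‖ ^ 2 := by
  have h1 := (ons_dE p u k m1 m2 x).sum_inner_le C v
  have h2 := rk_dE_le p u k (m2 := m2) hx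
  have hκ0 : 0 ≤ κ := (opn_nonneg C v).trans hκ
  have e : ∑ z ∈ C, ‖prj (dE p u k m1 m2 x) (v z)‖ ^ 2 =
      ∑ z ∈ C, ∑ i, (inner ℝ (dE p u k m1 m2 x i) (v z) : ℝ) ^ 2 :=
    sum_congr rfl fun z _ => (ons_dE p u k m1 m2 x).norm_prj_sq (v z)
  have hE : 0 ≤ ∑ y ∈ iv k m2, ‖rP p u k x y‖ ^ 2 := sum_nonneg fun _ _ => sq_nonneg _
  rw [e]
  set R : ℝ := (rk (dE p u k m1 m2 x) : ℝ) with hR
  have hR0 : 0 ≤ R := Nat.cast_nonneg _
  set S := ∑ z ∈ C, ∑ i, (inner ℝ (dE p u k m1 m2 x i) (v z) : ℝ) ^ 2 with hS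
  have hS0 : 0 ≤ S := sum_nonneg fun _ _ => sum_nonneg fun _ _ => sq_nonneg _
  rcases le_or_gt 0 p.w with hw | hw
  · calc p.w * 2 ^ k * S ≤ p.w * 2 ^ k * (R * κ) :=
          mul_le_mul_of_nonneg_left (h1.trans (mul_le_mul_of_nonneg_left hκ hR0)) (by positivity)
      _ = κ * (p.w * 2 ^ k * R) := by ring
      _ ≤ _ := mul_le_mul_of_nonneg_left h2 hκ0
  · have : p.w * 2 ^ k * S ≤ 0 := by
      have h4 : p.w * 2 ^ k ≤ 0 := mul_nonpos_of_nonpos_of_nonneg hw.le (by positivity)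
      exact mul_nonpos_of_nonpos_of_nonneg h4 hS0
    exact this.trans (mul_nonneg hκ0 hE)

/-- The same, summed over the pivots. -/
theorem slab_dE_le (k : ℕ) (m1 m2 : ℤ) (C : Finset ℤ) (v : ℤ → ℤ → V) {κ : ℝ}
    (hκ : ∀ x ∈ iv k m1, opn C (v x) ≤ κ) :
    p.w * 2 ^ k * ∑ x ∈ iv k m1, ∑ z ∈ C, ‖prj (dE p u k m1 m2 x) (v x z)‖ ^ 2 ≤
      κ * mass (iv k m1) (iv k m2) (rP p u k) := by
  unfold mass
  rw [mul_sum, mul_sum]
  exact sum_le_sum fun x hx => sum_dE_le p u k hx C (v x) (hκ x hx)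

/-! #### the composite -/

/-- **The step of the composite**: the removed parts are `⟪rY, v⟫` and `⟪rP, P v⟫`. -/
theorem inner_uc_succ (k : ℕ) (x y : ℤ) (v : V) :
    (inner ℝ (uc p u (k + 1) x y) v : ℝ) = inner ℝ (uc p u k x y) v +
      (inner ℝ (rY p u k x y) v +
        inner ℝ (rP p u k x y) (prj (dE p u k (ix k x) (ix k y) x) v)) := by
  have ho := ons_dE p u k (ix k x) (ix k y) x
  have h1 : (inner ℝ (rP p u k x y) v : ℝ) =
      inner ℝ (rP p u k x y) (prj (dE p u k (ix k x) (ix k y) x) v) := by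
    rw [rP_eq, H70.prj_symm, H70.prj_symm, ho.prj_prj]
  rw [uc_succ, inner_add_left, inner_add_left, h1]

/-- **All the steps of the composite.** -/
theorem inner_uc_sum {k l : ℕ} (hkl : k ≤ l) (x y : ℤ) (v : V) :
    (inner ℝ (uc p u l x y) v : ℝ) = inner ℝ (uc p u k x y) v +
      ∑ j ∈ Ico k l, (inner ℝ (rY p u j x y) v +
        inner ℝ (rP p u j x y) (prj (dE p u j (ix j x) (ix j y) x) v)) := by
  induction l, hkl using Nat.le_induction with
  | base => rw [Ico_self, sum_empty, add_zero]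
  | succ l hl ih => rw [inner_uc_succ, ih, sum_Ico_succ_top hl, add_assoc]

end proc

end

end Vale.Agent.P141.H939
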