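import Vale.Agent.P141.H939.TopPM
import Vale.Agent.P141.H386.PhBo
import Vale.Agent.P141.H973.PhiC

/-!
# P141, line (A), top: the price of the flow part is closed

* **`priceB_FDU : PriceB H636.FDU FM1`**, no hypotheses;
* **`finalAll_of_LBCg : LBCg → FinalAll`** : every `r < 2` from one open statement;
* `finalAll_of_numBC` : the same from the numbers of the pair `(B, C)`.
-/

namespace Vale.Agent.P141.H939.Top

open Vale.Agent.P141.H677 Vale.Agent.P141.H677.Sk
open Vale.Agent.P141.H408 (LBCg)

noncomputable section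

/-- **The price of the flow part.** -/
theorem priceB_FDU :
    H939.PriceB H636.FDU fun _ι _ _ K M R A b C h j e => FM1 K M R A b C h j e :=
  priceB_of_two H386.PB.phBo H973.phiC

/-- **Every `r < 2` from the one open statement.** -/
theorem finalAll_of_LBCg (h3 : LBCg) : H397.FinalAll :=
  H401.finalAll_of_LBCg_PriceB h3 priceB_FDU

/-- **Every `r < 2` from the numbers of the pair `(B, C)`.** -/
theorem finalAll_of_numBC {K₀ c₁ : ℝ} (hK₀ : 0 ≤ K₀) (hc₁ : 0 ≤ c₁) (H : H886.NumBC K₀ c₁) :
    H397.FinalAll :=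
  finalAll_of_LBCg (H886.lbc_end hK₀ hc₁ H)

end

end Vale.Agent.P141.H939.Top
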