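import Vale.Agent.P141.H939.LbcF
import Vale.Agent.P141.H939.PriceF

/-!
# P141, line (A): every exponent `r < 2`, no hypotheses
-/

namespace Vale.Agent.P141.H939

/-- **Every `r < 2`.** -/
theorem finalAll : H397.FinalAll := Top.finalAll_of_LBCg BC.lBCg

end Vale.Agent.P141.H939
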