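import Vale.Agent.P141.H939.Lazy2
import Vale.Agent.P141.H703.E2H

/-!
# P141, CE: the lazy process in averages and label coordinates; the own energies

`u` has its values in `EuclideanSpace ℝ κ`, `cr u l x y` its coordinates.  On every square of scale
`k ≤ N` the current value and the value before the treatment satisfy the hypotheses of `e2H`.
-/

namespace Vale.Agent.P141.H939

open Finset
open Vale.Agent.P141.PL (iv ix mem_iv self_mem_iv card_iv)
open Vale.Agent.P141.PL.H315 (avg avg_nonneg)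
open Vale.Agent.P141.H971 (qf nrg opn qf_le_opn opn_nonneg mass mass_nonneg)
open Vale.Agent.P141.H703 (euc norm_euc_sq inner_euc u4T e2H mo4t_ht mo4t_congr)
open Vale.Agent.P141.H834 (UnifP LineB)
open Vale.Agent.P141.H204 (mo4t)

noncomputable section

set_option linter.unusedSectionVars false

/-! ### averages -/

theorem ix_zero' (m : ℤ) : ix 0 m = m := by
  unfold ix
  simp

theorem iv_nonempty (k : ℕ) (m : ℤ) : (iv k m).Nonempty := by
  rw [← card_pos, card_iv]; positivity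

theorem avg_iv (k : ℕ) (m : ℤ) (f : ℤ → ℝ) : avg (iv k m) f = (2 ^ k : ℝ)⁻¹ * ∑ x ∈ iv k m, f x := by
  unfold avg
  rw [card_iv]
  push_cast
  rfl

theorem sum_iv_eq (k : ℕ) (m : ℤ) (f : ℤ → ℝ) : ∑ x ∈ iv k m, f x = 2 ^ k * avg (iv k m) f := by
  rw [avg_iv, ← mul_assoc, mul_inv_cancel₀ (by positivity), one_mul]

section gen

variable {V : Type*} [NormedAddCommGroup V] [InnerProductSpace ℝ V]

/-- The average mass on a square. -/
def am (k : ℕ) (m1 m2 : ℤ) (u : ℤ → ℤ → V) : ℝ :=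
  avg (iv k m1) fun x => avg (iv k m2) fun y => ‖u x y‖ ^ 2

theorem am_nonneg (k : ℕ) (m1 m2 : ℤ) (u : ℤ → ℤ → V) : 0 ≤ am k m1 m2 u :=
  avg_nonneg fun _ _ => avg_nonneg fun _ _ => sq_nonneg _

theorem mass_eq_am (k : ℕ) (m1 m2 : ℤ) (u : ℤ → ℤ → V) :
    mass (iv k m1) (iv k m2) u = 4 ^ k * am k m1 m2 u := by
  unfold mass am
  have h4 : (4 : ℝ) ^ k = 2 ^ k * 2 ^ k := by rw [← mul_pow]; norm_num
  rw [h4, mul_assoc, ← sum_iv_eq, mul_sum]
  exact sum_congr rfl fun x _ => sum_iv_eq k m2 _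

theorem am_eq_mass (k : ℕ) (m1 m2 : ℤ) (u : ℤ → ℤ → V) :
    am k m1 m2 u = (4 ^ k : ℝ)⁻¹ * mass (iv k m1) (iv k m2) u := by
  rw [mass_eq_am, ← mul_assoc, inv_mul_cancel₀ (by positivity), one_mul]

theorem am_le_of_mass {k : ℕ} {m1 m2 : ℤ} {u : ℤ → ℤ → V} {c : ℝ}
    (h : mass (iv k m1) (iv k m2) u ≤ c * 4 ^ k) : am k m1 m2 u ≤ c := by
  rw [am_eq_mass]
  rw [inv_mul_le_iff₀ (by positivity)]
  linarith

theorem am_mono {k : ℕ} {m1 m2 : ℤ} {u v : ℤ → ℤ → V}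
    (h : ∀ x ∈ iv k m1, ∀ y ∈ iv k m2, ‖u x y‖ ≤ ‖v x y‖) : am k m1 m2 u ≤ am k m1 m2 v := by
  unfold am
  exact H550.avg_mono fun x hx => H550.avg_mono fun y hy =>
    pow_le_pow_left₀ (norm_nonneg _) (h x hx y hy) 2

variable (p : Par) (u : ℤ → ℤ → V)

/-- The part which is left in: heavy rows and directions. -/
def hL (k : ℕ) (x y : ℤ) : V := hY p u k x y + hP p u k x y

/-- The removed part. -/
def rL (k : ℕ) (x y : ℤ) : V := rY p u k x y + rP p u k x y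

theorem uc_eq_hL_lo (k : ℕ) (x y : ℤ) : uc p u k x y = hL p u k x y + lo p u k x y :=
  uc_parts p u k x y

theorem uc_succ' (k : ℕ) (x y : ℤ) : uc p u (k + 1) x y = uc p u k x y + rL p u k x y :=
  uc_succ p u k x y

theorem inner_hY_hP (k : ℕ) (x y : ℤ) :
    (inner ℝ (hY p u k x y) (hP p u k x y) : ℝ) = 0 := by
  unfold hY hP
  split_ifs
  · exact inner_zero_left _
  · exact inner_hv_dp _ _ _ _ _ _ _ _ _

theorem inner_rY_rP (k : ℕ) (x y : ℤ) :
    (inner ℝ (rY p u k x y) (rP p u k x y) : ℝ) = 0 := by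
  unfold rY rP
  split_ifs
  · exact inner_hv_dp _ _ _ _ _ _ _ _ _
  · exact inner_zero_left _

theorem norm_hL_sq (k : ℕ) (x y : ℤ) :
    ‖hL p u k x y‖ ^ 2 = ‖hY p u k x y‖ ^ 2 + ‖hP p u k x y‖ ^ 2 := by
  unfold hL
  rw [norm_add_sq_real, inner_hY_hP]
  ring

theorem norm_rL_sq (k : ℕ) (x y : ℤ) :
    ‖rL p u k x y‖ ^ 2 = ‖rY p u k x y‖ ^ 2 + ‖rP p u k x y‖ ^ 2 := by
  unfold rL
  rw [norm_add_sq_real, inner_rY_rP]
  ring

theorem norm_rL_le (k : ℕ) (x y : ℤ) : ‖rL p u k x y‖ ≤ ‖u x y‖ := by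
  have h1 := norm_rL_sq p u k x y
  have h2 := pyth_uc p u k x y
  have h3 := norm_uc_le p u (k + 1) x y
  have h4 : ‖rL p u k x y‖ ^ 2 ≤ ‖uc p u (k + 1) x y‖ ^ 2 := by
    rw [h1, h2]; linarith [sq_nonneg ‖uc p u k x y‖]
  exact ((abs_le_of_sq_le_sq' h4 (norm_nonneg _)).2).trans h3

theorem norm_hL_le (k : ℕ) (x y : ℤ) : ‖hL p u k x y‖ ≤ ‖u x y‖ := by
  unfold hL hY hP
  split_ifs
  · rw [add_zero, norm_zero]; exact norm_nonneg _
  · have h := pyth3 p.n p.K p.w k (ix k x) (ix k y) (uc p u (k + 1)) x y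
    have h1 := norm_ruL_sq p.n p.K p.w k (ix k x) (ix k y) (uc p u (k + 1)) x y
    unfold ruL at h1
    have h4 : ‖hv p.K k (ix k x) (uc p u (k + 1)) x y +
        dp p.n p.K p.w k (ix k x) (ix k y) (uc p u (k + 1)) x y‖ ^ 2 ≤
        ‖uc p u (k + 1) x y‖ ^ 2 := by
      rw [h1, h]
      linarith [sq_nonneg ‖lf p.n p.K p.w k (ix k x) (ix k y) (uc p u (k + 1)) x y‖]
    exact ((abs_le_of_sq_le_sq' h4 (norm_nonneg _)).2).trans (norm_uc_le p u _ x y)

theorem mass_hL (A B : Finset ℤ) (k : ℕ) :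
    mass A B (hL p u k) = mass A B (hY p u k) + mass A B (hP p u k) := by
  unfold mass
  rw [← sum_add_distrib]
  refine sum_congr rfl fun x _ => ?_
  rw [← sum_add_distrib]
  exact sum_congr rfl fun y _ => norm_hL_sq p u k x y

theorem mass_rL (A B : Finset ℤ) (k : ℕ) :
    mass A B (rL p u k) = mass A B (rY p u k) + mass A B (rP p u k) := by
  unfold mass
  rw [← sum_add_distrib]
  refine sum_congr rfl fun x _ => ?_
  rw [← sum_add_distrib]
  exact sum_congr rfl fun y _ => norm_rL_sq p u k x y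

/-- **Left in mass**, averages. -/
theorem am_hL {k : ℕ} (hk : k ≤ p.N) (m1 m2 : ℤ) (hp : p.Ok) :
    am k m1 m2 (hL p u k) ≤ p.m0 * (am k m1 m2 (uc p u k) + p.s) := by
  refine am_le_of_mass ?_
  rw [mass_hL]
  refine (mass_hY_hP p u k hk m1 m2 hp).trans (le_of_eq ?_)
  rw [mass_eq_am]; ring

/-- The same on the squares of a smaller scale. -/
theorem am_hL_fine {k l : ℕ} (hkl : k ≤ l) (hl : l ≤ p.N) (m1 m2 : ℤ) (hp : p.Ok) :
    am k m1 m2 (hL p u l) ≤ 4 ^ (l - k) *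
      (p.m0 * (am l (ix (l - k) m1) (ix (l - k) m2) (uc p u l) + p.s)) := by
  refine am_le_of_mass ?_
  rw [mass_hL]
  refine (mass_hY_hP_fine p u hkl hl m1 m2 hp).trans (le_of_eq ?_)
  rw [mass_eq_am]
  have h4 : (4 : ℝ) ^ l = 4 ^ (l - k) * 4 ^ k := by rw [← pow_add]; congr 1; omega
  rw [h4]; ring

/-- The rows of the light part, averages, on the squares of a smaller scale. -/
theorem avg_row_lo {k l : ℕ} (hkl : k ≤ l) (m1 : ℤ) (y : ℤ) (hp : p.Ok) :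
    (avg (iv k m1) fun x => ‖lo p u l x y‖ ^ 2) ≤ 2 ^ (l - k) * p.K := by
  rw [avg_iv, inv_mul_le_iff₀ (by positivity)]
  refine (row_lo_fine p u hkl m1 y hp).trans (le_of_eq ?_)
  have h2 : (2 : ℝ) ^ l = 2 ^ k * 2 ^ (l - k) := by rw [← pow_add]; congr 1; omega
  rw [h2]; ring

/-- The potential of the light part, averages, on the intervals of a smaller scale. -/
theorem avg_pot_lo {k l : ℕ} (hkl : k ≤ l) (m2 x : ℤ) (hp : p.Ok) (hu : ∀ y, ‖u x y‖ ≤ 1)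
    (v : V) : (avg (iv k m2) fun y => (inner ℝ (lo p u l x y) v : ℝ) ^ 2) ≤
      2 ^ (l - k) * (2 * p.w) * ‖v‖ ^ 2 := by
  rw [avg_iv, inv_mul_le_iff₀ (by positivity)]
  have h1 := qf_le_opn (iv k m2) (lo p u l x) v
  have h2 := opn_lo_fine p u hkl m2 x hp hu
  have h3 : (2 : ℝ) ^ l = 2 ^ k * 2 ^ (l - k) := by rw [← pow_add]; congr 1; omega
  refine h1.trans ((mul_le_mul_of_nonneg_right h2 (sq_nonneg _)).trans (le_of_eq ?_))
  rw [h3]; ring

theorem am_lo_le (k l : ℕ) (m1 m2 : ℤ) : am k m1 m2 (lo p u l) ≤ am k m1 m2 (uc p u l) :=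
  am_mono fun x _ y _ => norm_lo_le_uc p u l x y

end gen

/-! ### label coordinates -/

section labels

variable {κ : Type*} [Fintype κ] [DecidableEq κ]

/-- The coordinates. -/
def cr (u : ℤ → ℤ → EuclideanSpace ℝ κ) (l : κ) (x y : ℤ) : ℝ := u x y l

theorem sum_cr_sq (u : ℤ → ℤ → EuclideanSpace ℝ κ) (x y : ℤ) :
    ∑ l, cr u l x y ^ 2 = ‖u x y‖ ^ 2 := by
  rw [EuclideanSpace.norm_sq_eq]
  exact sum_congr rfl fun l _ => by rw [Real.norm_eq_abs, sq_abs]; rfl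

theorem sum_cr_mul (u : ℤ → ℤ → EuclideanSpace ℝ κ) (x y : ℤ) (v : κ → ℝ) :
    ∑ l, cr u l x y * v l = inner ℝ (u x y) (WithLp.toLp 2 v : EuclideanSpace ℝ κ) := by
  rw [PiLp.inner_apply]
  exact sum_congr rfl fun l _ => by simp [cr, mul_comm]

theorem norm_toLp_sq (v : κ → ℝ) :
    ‖(WithLp.toLp 2 v : EuclideanSpace ℝ κ)‖ ^ 2 = ∑ l, v l ^ 2 := by
  rw [EuclideanSpace.norm_sq_eq]
  exact sum_congr rfl fun l _ => by rw [Real.norm_eq_abs, sq_abs]

theorem avg_cr (k : ℕ) (m1 m2 : ℤ) (u : ℤ → ℤ → EuclideanSpace ℝ κ) :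
    (avg (iv k m1) fun x => avg (iv k m2) fun y => ∑ l, cr u l x y ^ 2) = am k m1 m2 u := by
  unfold am
  exact H550.avg_congr fun x _ => H550.avg_congr fun y _ => sum_cr_sq u x y

/-- The three terms of the own energy. -/
def ownR (d e τ m W R : ℝ) (N : ℕ) : ℝ :=
  5760000 * (d ^ 2 * e) * (τ * √τ) + 46080000 * (d ^ 2 * e) * ((1 / 2) ^ N * (m * √m)) +
    16384 * N ^ 2 * e ^ 3 * (m * u4T d W R)

variable (p : Par) (u : ℤ → ℤ → EuclideanSpace ℝ κ)

/-- **Own energy of the value of the scale `l` on a square of scale `k ≤ l ≤ N`.** -/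
theorem own_fine {d e : ℝ} (hd : 0 < d) (he : 1 ≤ e) {k l : ℕ} (hkl : k ≤ l) (hl : l ≤ p.N)
    (m1 m2 : ℤ) {C : Finset ℤ} {G : ℤ × ℤ × ℤ → ℝ} (hU : UnifP d (iv k m1) (iv k m2) C G)
    (hL' : LineB e (iv k m1) (iv k m2) C G) (hp : p.Ok) (hu : ∀ x y, ‖u x y‖ ≤ 1) {m τ : ℝ}
    (hm : am k m1 m2 (uc p u l) ≤ m)
    (hτ : 4 ^ (l - k) * (p.m0 * (am l (ix (l - k) m1) (ix (l - k) m2) (uc p u l) + p.s)) ≤ τ)
    (N : ℕ) :
    mo4t (iv k m1) (iv k m2) C (cr (uc p u l)) G ≤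
      ownR d e τ m (2 ^ (l - k) * (2 * p.w)) (2 ^ (l - k) * p.K) N := by
  have hw0 := hp.w0
  have hK0 := hp.K0
  refine e2H hd he (by positivity) (by positivity) (iv_nonempty k m1) (iv_nonempty k m2) hU hL'
    (u := cr (uc p u l)) (a := cr (lo p u l)) (r := cr (hL p u l)) ?_ ?_ ?_ ?_ ?_ ?_ ?_ N
  · intro i x _ y _
    unfold cr
    rw [uc_eq_hL_lo, add_comm]
    rfl
  · intro x _ y _
    rw [sum_cr_sq]
    exact pow_le_one₀ (norm_nonneg _) ((norm_hL_le p u l x y).trans (hu x y))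
  · rw [avg_cr]
    exact (am_hL_fine p u hkl hl m1 m2 hp).trans hτ
  · intro x _ y _
    rw [sum_cr_sq]
    exact pow_le_one₀ (norm_nonneg _) ((norm_lo_le p u l x y).trans (hu x y))
  · intro x _ v
    have h := avg_pot_lo p u hkl m2 x hp (hu x) (WithLp.toLp 2 v : EuclideanSpace ℝ κ)
    rw [norm_toLp_sq] at h
    refine (le_of_eq (H550.avg_congr fun y _ => ?_)).trans h
    rw [sum_cr_mul]
  · intro y _
    refine (le_of_eq (H550.avg_congr fun x _ => ?_)).trans (avg_row_lo p u hkl m1 y hp)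
    rw [sum_cr_sq]
  · rw [avg_cr]
    exact (am_lo_le p u k l m1 m2).trans hm

/-- **Own energy of the current value**, square of the same scale `k ≤ N`. -/
theorem own_now {d e : ℝ} (hd : 0 < d) (he : 1 ≤ e) {k : ℕ} (hk : k ≤ p.N)
    (m1 m2 : ℤ) {C : Finset ℤ} {G : ℤ × ℤ × ℤ → ℝ} (hU : UnifP d (iv k m1) (iv k m2) C G)
    (hL' : LineB e (iv k m1) (iv k m2) C G) (hp : p.Ok) (hu : ∀ x y, ‖u x y‖ ≤ 1) {m τ : ℝ}
    (hm : am k m1 m2 (uc p u k) ≤ m) (hτ : p.m0 * (am k m1 m2 (uc p u k) + p.s) ≤ τ) (N : ℕ) :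
    mo4t (iv k m1) (iv k m2) C (cr (uc p u k)) G ≤ ownR d e τ m (2 * p.w) p.K N := by
  have h := own_fine p u hd he (le_refl k) hk m1 m2 hU hL' hp hu hm (τ := τ) (by
    simpa [ix_zero'] using hτ) N
  simpa using h

/-- **Own energy of the value before the treatment**: `uc (k + 1)` on a square of scale `k`. -/
theorem own_before {d e : ℝ} (hd : 0 < d) (he : 1 ≤ e) {k : ℕ} (hk : k + 1 ≤ p.N)
    (m1 m2 : ℤ) {C : Finset ℤ} {G : ℤ × ℤ × ℤ → ℝ} (hU : UnifP d (iv k m1) (iv k m2) C G)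
    (hL' : LineB e (iv k m1) (iv k m2) C G) (hp : p.Ok) (hu : ∀ x y, ‖u x y‖ ≤ 1) {m τ : ℝ}
    (hm : am k m1 m2 (uc p u (k + 1)) ≤ m)
    (hτ : 4 * (p.m0 * (am (k + 1) (ix 1 m1) (ix 1 m2) (uc p u (k + 1)) + p.s)) ≤ τ) (N : ℕ) :
    mo4t (iv k m1) (iv k m2) C (cr (uc p u (k + 1))) G ≤
      ownR d e τ m (2 * (2 * p.w)) (2 * p.K) N := by
  have e1 : k + 1 - k = 1 := by omega
  have h := own_fine p u hd he (Nat.le_succ k) hk m1 m2 hU hL' hp hu hm (τ := τ) (by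
    rw [Nat.succ_eq_add_one, e1, pow_one]; exact hτ) N
  rw [Nat.succ_eq_add_one, e1, pow_one] at h
  exact h

/-- **Own energy of the removed part** (and of any part of small energy). -/
theorem own_removed {d e : ℝ} (hd : 0 < d) (he : 1 ≤ e) (k : ℕ) (m1 m2 : ℤ) {C : Finset ℤ}
    {G : ℤ × ℤ × ℤ → ℝ} (hU : UnifP d (iv k m1) (iv k m2) C G)
    (hL' : LineB e (iv k m1) (iv k m2) C G) {a : ℤ → ℤ → EuclideanSpace ℝ κ}
    (ha : ∀ x y, ‖a x y‖ ≤ 1) {τ : ℝ} (hτ : am k m1 m2 a ≤ τ) :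
    mo4t (iv k m1) (iv k m2) C (cr a) G ≤ 720000 * (d ^ 2 * e) * (τ * √τ) := by
  have h := mo4t_ht hd.le (by linarith) (zero_le_one) (iv_nonempty k m1) (iv_nonempty k m2) hU hL'
    (cr a) (m := τ) (fun x _ y _ => by
      rw [sum_cr_sq, one_pow]
      exact pow_le_one₀ (norm_nonneg _) (ha x y)) (by rw [avg_cr]; exact hτ)
  simpa using h

/-- **Own energy of the value before the treatment at an event**: the removed mass `τ` and the
light part. -/
theorem own_event {d e : ℝ} (hd : 0 < d) (he : 1 ≤ e) {k : ℕ} {m1 m2 : ℤ}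
    (hev : Ev p u k m1 m2) {C : Finset ℤ} {G : ℤ × ℤ × ℤ → ℝ}
    (hU : UnifP d (iv k m1) (iv k m2) C G)
    (hL' : LineB e (iv k m1) (iv k m2) C G) (hp : p.Ok) (hu : ∀ x y, ‖u x y‖ ≤ 1) {m τ : ℝ}
    (hm : am k m1 m2 (uc p u k) ≤ m) (hτ : am k m1 m2 (rL p u k) ≤ τ) (N : ℕ) :
    mo4t (iv k m1) (iv k m2) C (cr (uc p u (k + 1))) G ≤ ownR d e τ m (2 * p.w) p.K N := by
  have hw0 := hp.w0
  have hK0 := hp.K0
  refine e2H hd he (by positivity) (by positivity) (iv_nonempty k m1) (iv_nonempty k m2) hU hL'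
    (u := cr (uc p u (k + 1))) (a := cr (lo p u k)) (r := cr (rL p u k)) ?_ ?_ ?_ ?_ ?_ ?_ ?_ N
  · intro i x hx y hy
    rw [mem_iv] at hx hy
    subst hx; subst hy
    unfold cr
    rw [uc_succ', uc_of_ev p u hev]
    rfl
  · intro x _ y _
    rw [sum_cr_sq]
    exact pow_le_one₀ (norm_nonneg _) ((norm_rL_le p u k x y).trans (hu x y))
  · rw [avg_cr]
    exact hτ
  · intro x _ y _
    rw [sum_cr_sq]
    exact pow_le_one₀ (norm_nonneg _) ((norm_lo_le p u k x y).trans (hu x y))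
  · intro x _ v
    have h := avg_pot_lo p u (le_refl k) m2 x hp (hu x) (WithLp.toLp 2 v : EuclideanSpace ℝ κ)
    rw [norm_toLp_sq] at h
    simp only [Nat.sub_self, pow_zero, one_mul] at h
    refine (le_of_eq (H550.avg_congr fun y _ => ?_)).trans h
    rw [sum_cr_mul]
  · intro y _
    have h := avg_row_lo p u (le_refl k) m1 y hp
    simp only [Nat.sub_self, pow_zero, one_mul] at h
    refine (le_of_eq (H550.avg_congr fun x _ => ?_)).trans h
    rw [sum_cr_sq]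
  · rw [avg_cr]
    exact (am_lo_le p u k k m1 m2).trans hm

end labels

end

end Vale.Agent.P141.H939
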