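import Vale.Agent.P141.H222.NumOf
import Vale.Agent.P141.H736.FixBD
import Vale.Agent.P141.H329.WinS
import Vale.Agent.P141.H74.CutBC
import Vale.Agent.P141.H652.NumR
import Vale.Agent.P141.H652.NumQ
import Vale.Agent.P141.H548.LagU
import Vale.Agent.P141.H302.BornU
import Vale.Agent.P141.H989.CrB3

/-!
# P141, line (A), increasing part: the leaf of the moving pair `(Bg, Cg)`

* `fE`, `fB` : the two numbers at one `x0`; `sumU_E`, `sumU_B` : their sums;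
* `pt` : the pair at one `x0`, from `H736.fix_BC2`;
* **`numBC : NumBC 2160000 2`**, **`lBCg : LBCg`**.
-/

namespace Vale.Agent.P141.H939.BC

open Finset Matrix
open Vale.Agent.P075 (Ix)
open Vale.Agent.P141.PL (Pt iv ix cx mem_iv)
open Vale.Agent.P141.PL.H315 (Tri)
open Vale.Agent.P141.H48 (US ES BSl)
open Vale.Agent.P141.H305 (ClsM kapM)
open Vale.Agent.P141.H401 (StQ FibU FibP cb)
open Vale.Agent.P141.H677 (rt KT GT cP tr_T)
open Vale.Agent.P141.H505.Sk1 (Ch eT)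
open Vale.Agent.P141.H408
open Vale.Agent.P141.H808 (cS thS)
open Vale.Agent.P141.H652 (Th eb ah PbS dB payS)
open Vale.Agent.P141.H548
open Vale.Agent.P141.H302 (bN tS eT_nn sumU_b0 sumU_b1 nmB_bN Wn_bN Pr pr_not pr_ch)
open Vale.Agent.P141.H989.CrB (fCRB mB sumU_mB TT)
open Vale.Agent.P141.H886 (NumF SumQ SumU SumL NumBC pBC lbc_end)
open Vale.Agent.P141.H419.WFamR
open Vale.Agent.P141.H457 (rs PG)
open Vale.Agent.P141.H912 (wS)
open Vale.Agent.P141.H74.CutBC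

noncomputable section

open scoped Classical

set_option linter.unusedVariables false

/-- the number of the second slot -/
def fE : NumF := fun ι _ _ p n ez F1 F2 F3 o K x s r U g u v Q1 Q2 Q3 x0 =>
  (((∑ l ∈ range (K + 1), (3 / 4 : ℝ) ^ l *
      vN 0 l ι p n ez F1 F2 F3 o K x s r U g u v Q1 Q2 Q3 x0) +
    ∑ l ∈ range (K + 1), (3 / 4 : ℝ) ^ l *
      vN 1 l ι p n ez F1 F2 F3 o K x s r U g u v Q1 Q2 Q3 x0) +
    ((∑ l ∈ range (K + 1), (3 / 4 : ℝ) ^ l *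
      oN l ι p n ez F1 F2 F3 o K x s r U g u v Q1 Q2 Q3 x0) +
    ∑ l ∈ range (K + 1), (3 / 4 : ℝ) ^ l *
      bN (l + 1) ι p n ez F1 F2 F3 o K x s r U g u v Q1 Q2 Q3 x0)) +
  (bN 0 ι p n ez F1 F2 F3 o K x s r U g u v Q1 Q2 Q3 x0 +
    fCRB mB ι p n ez F1 F2 F3 o K x s r U g u v Q1 Q2 Q3 x0)

/-- the number of the first slot -/
def fB : NumF := fun ι _ _ p n ez F1 F2 F3 o K x s r U g u v Q1 Q2 Q3 x0 =>
  dB p s r U K x u F3 Q3 x0 +
    payS (beI p r) (p.lam s r) o K (cx K x) u (fun k => H652.bS p s r U K u F3 Q3 x0 k) x0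

theorem sumU_E : SumU 1 fE :=
  SumU.add (SumU.add (SumU.add (sumU_v (Nat.zero_le _)) (sumU_v le_rfl))
    (SumU.add sumU_o sumU_b1)) (SumU.add sumU_b0 sumU_mB)

theorem sumU_B : SumU (-1) fB := H652.EBU

section one

variable {ι : Type} [Fintype ι] [DecidableEq ι]
variable {p : H401.Num} {s r ez : ℝ} {o : ℤ} {K : ℕ} {x : Pt} {U : Tri} {u v : ℤ → ℤ → ι → ℝ}
  {F1 F2 F3 : ℕ → Pt → ℝ} {Q1 Q2 Q3 : ℕ → Pt → Prop} {g : ℤ → ℤ → ℝ} {n : ℕ} {x0 : ℤ}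

theorem kinds_nonneg (ht : 0 < p.t) (hs : 0 < s) (hr : 1 ≤ r) (o : ℤ) (K : ℕ) (x : Pt)
    (u : ℤ → ℤ → ι → ℝ) (x0 : ℤ) (a : ℕ) (x1 z : ℤ) (w : ι → ℝ) :
    0 ≤ kinds p s r o K x u x0 a x1 z w := by
  have h1 := zm_nonneg ht hs hr o K x u x0 a x1 z w
  have h2 := ze_nonneg ht hs hr o K x u x0 a x1 z w
  have h3 := zd_nonneg ht hs hr o K x u x0 a x1 z w
  have h4 := zq_nonneg ht hs hr o K x u x0 a x1 z w
  unfold kinds
  linarith

theorem be_pos (ht : 0 < p.t) (hr : 1 ≤ r) : 0 < beI p r :=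
  Real.rpow_pos_of_pos (div_pos ht (by linarith)) _

theorem chD (ht : 0 < p.t) (hs : 0 < s) (hr : 1 ≤ r) (o : ℤ) (K : ℕ) (x : Pt)
    (u : ℤ → ℤ → ι → ℝ) (x0 : ℤ) (a : ℕ) (x1 z : ℤ) (w : ι → ℝ) :
    (beI p r)⁻¹ * ((dN p s r o K x u x0 a x1 z *ᵥ w) ⬝ᵥ (dN p s r o K x u x0 a x1 z *ᵥ w)) ≤
      chg p s r o K x u x0 a x1 z w + kinds p s r o K x u x0 a x1 z w := by
  have hb := inv_pos.2 (be_pos (p := p) ht hr)
  have h1 := kinds_nonneg ht hs hr o K x u x0 a x1 z w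
  have h2 := ze_nonneg ht hs hr o K x u x0 a x1 z w
  have h3 : 0 ≤ (dN p s r o K x u x0 a x1 z *ᵥ w) ⬝ᵥ (dN p s r o K x u x0 a x1 z *ᵥ w) :=
    H447.dot_self_nonneg _
  have h4 := mul_nonneg hb.le h3
  have h5 := mul_nonneg hb.le h2
  unfold chg
  unfold dN eN at *
  linarith

theorem chE (ht : 0 < p.t) (hs : 0 < s) (hr : 1 ≤ r) (o : ℤ) (K : ℕ) (x : Pt)
    (u : ℤ → ℤ → ι → ℝ) (x0 : ℤ) (a : ℕ) (x1 z : ℤ) (w : ι → ℝ) :
    (beI p r)⁻¹ * (w ⬝ᵥ eN p s r o K x u x0 a x1 z *ᵥ w) ≤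
      chg p s r o K x u x0 a x1 z w + kinds p s r o K x u x0 a x1 z w := by
  have hb := inv_pos.2 (be_pos (p := p) ht hr)
  have h1 := kinds_nonneg ht hs hr o K x u x0 a x1 z w
  have h2 := ze_nonneg ht hs hr o K x u x0 a x1 z w
  have h3 : 0 ≤ (dN p s r o K x u x0 a x1 z *ᵥ w) ⬝ᵥ (dN p s r o K x u x0 a x1 z *ᵥ w) :=
    H447.dot_self_nonneg _
  have h4 := mul_nonneg hb.le h3
  have h5 := mul_nonneg hb.le h2
  unfold chg
  unfold dN eN at *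
  linarith

theorem chg_nonneg' (ht : 0 < p.t) (hs : 0 < s) (hr : 1 ≤ r) (o : ℤ) (K : ℕ) (x : Pt)
    (u : ℤ → ℤ → ι → ℝ) (x0 : ℤ) (a : ℕ) (x1 z : ℤ) (w : ι → ℝ) :
    0 ≤ chg p s r o K x u x0 a x1 z w + kinds p s r o K x u x0 a x1 z w :=
  (mul_nonneg (inv_pos.2 (be_pos (p := p) ht hr)).le
    (ze_nonneg ht hs hr o K x u x0 a x1 z w)).trans (chE ht hs hr o K x u x0 a x1 z w)

theorem vN_nonneg (ht : 0 < p.t) (hs : 0 < s) (hr : 1 ≤ r) (j q : ℕ) :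
    0 ≤ vN j q ι p n ez F1 F2 F3 o K x s r U g u v Q1 Q2 Q3 x0 :=
  sum_nonneg fun k _ => sum_nonneg fun x1 _ => sum_nonneg fun z _ =>
    chg_nonneg' ht hs hr o K x u x0 _ x1 z _

theorem oN_nonneg (ht : 0 < p.t) (hs : 0 < s) (hr : 1 ≤ r) (q : ℕ) :
    0 ≤ oN q ι p n ez F1 F2 F3 o K x s r U g u v Q1 Q2 Q3 x0 :=
  sum_nonneg fun x1 _ => sum_nonneg fun z _ => eT_nn ht hs hr _ _ _ _

theorem bN_nonneg (ht : 0 < p.t) (hs : 0 < s) (hr : 1 ≤ r) (q : ℕ) :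
    0 ≤ bN q ι p n ez F1 F2 F3 o K x s r U g u v Q1 Q2 Q3 x0 :=
  sum_nonneg fun k _ => sum_nonneg fun x1 _ => sum_nonneg fun z _ => by
    split_ifs
    · exact eT_nn ht hs hr _ _ _ _
    · exact le_rfl

theorem crb_nonneg (ht : 0 < p.t) (hs : 0 < s) (hr : 1 ≤ r) :
    0 ≤ fCRB mB ι p n ez F1 F2 F3 o K x s r U g u v Q1 Q2 Q3 x0 := by
  have hl : 0 < p.lam s r := H401.Num.lam_pos (p := p) ht hs hr
  have hT := H652.wt_Th (fun x1 => tr_T hl K u x1) (cx K x).2.1 (o - 2) x0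
  refine sum_nonneg fun k _ => sum_nonneg fun x1 _ => sum_nonneg fun z _ => ?_
  split_ifs
  · exact H736.wE_nonneg (be_pos ht hr) hT.ps _ _ _ _
  · exact le_rfl

theorem wsum_nonneg {f : ℕ → ℝ} (h : ∀ l, 0 ≤ f l) (K : ℕ) :
    0 ≤ ∑ l ∈ range (K + 1), (3 / 4 : ℝ) ^ l * f l :=
  sum_nonneg fun l _ => mul_nonneg (by positivity) (h l)

theorem le_wsum {f : ℕ → ℝ} (h : ∀ l, 0 ≤ f l) (K : ℕ) :
    f 0 ≤ ∑ l ∈ range (K + 1), (3 / 4 : ℝ) ^ l * f l := by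
  have h1 := single_le_sum (f := fun l => (3 / 4 : ℝ) ^ l * f l)
    (fun l _ => mul_nonneg (by positivity) (h l)) (mem_range.2 (Nat.succ_pos K))
  simpa using h1

theorem fE_parts (ht : 0 < p.t) (hs : 0 < s) (hr : 1 ≤ r) :
    0 ≤ fE ι p n ez F1 F2 F3 o K x s r U g u v Q1 Q2 Q3 x0 ∧
    (∑ l ∈ range (K + 1), (3 / 4 : ℝ) ^ l *
      vN 0 l ι p n ez F1 F2 F3 o K x s r U g u v Q1 Q2 Q3 x0) ≤
        fE ι p n ez F1 F2 F3 o K x s r U g u v Q1 Q2 Q3 x0 ∧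
    vN 1 0 ι p n ez F1 F2 F3 o K x s r U g u v Q1 Q2 Q3 x0 ≤
        fE ι p n ez F1 F2 F3 o K x s r U g u v Q1 Q2 Q3 x0 ∧
    oN 0 ι p n ez F1 F2 F3 o K x s r U g u v Q1 Q2 Q3 x0 ≤
        fE ι p n ez F1 F2 F3 o K x s r U g u v Q1 Q2 Q3 x0 ∧
    (∑ l ∈ range (K + 1), (3 / 4 : ℝ) ^ l *
      bN (l + 1) ι p n ez F1 F2 F3 o K x s r U g u v Q1 Q2 Q3 x0) ≤
        fE ι p n ez F1 F2 F3 o K x s r U g u v Q1 Q2 Q3 x0 ∧
    bN 0 ι p n ez F1 F2 F3 o K x s r U g u v Q1 Q2 Q3 x0 ≤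
        fE ι p n ez F1 F2 F3 o K x s r U g u v Q1 Q2 Q3 x0 ∧
    fCRB mB ι p n ez F1 F2 F3 o K x s r U g u v Q1 Q2 Q3 x0 ≤
        fE ι p n ez F1 F2 F3 o K x s r U g u v Q1 Q2 Q3 x0 := by
  have a1 := wsum_nonneg (fun l => vN_nonneg (ι := ι) (n := n) (ez := ez) (F1 := F1) (F2 := F2)
    (F3 := F3) (o := o) (K := K) (x := x) (U := U) (g := g) (u := u) (v := v) (Q1 := Q1) (Q2 := Q2)
    (Q3 := Q3) (x0 := x0) ht hs hr 0 l) K
  have a2 := wsum_nonneg (fun l => vN_nonneg (ι := ι) (n := n) (ez := ez) (F1 := F1) (F2 := F2)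
    (F3 := F3) (o := o) (K := K) (x := x) (U := U) (g := g) (u := u) (v := v) (Q1 := Q1) (Q2 := Q2)
    (Q3 := Q3) (x0 := x0) ht hs hr 1 l) K
  have b2 := le_wsum (fun l => vN_nonneg (ι := ι) (n := n) (ez := ez) (F1 := F1) (F2 := F2)
    (F3 := F3) (o := o) (K := K) (x := x) (U := U) (g := g) (u := u) (v := v) (Q1 := Q1) (Q2 := Q2)
    (Q3 := Q3) (x0 := x0) ht hs hr 1 l) K
  have a3 := wsum_nonneg (fun l => oN_nonneg (ι := ι) (n := n) (ez := ez) (F1 := F1) (F2 := F2)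
    (F3 := F3) (o := o) (K := K) (x := x) (U := U) (g := g) (u := u) (v := v) (Q1 := Q1) (Q2 := Q2)
    (Q3 := Q3) (x0 := x0) ht hs hr l) K
  have b3 := le_wsum (fun l => oN_nonneg (ι := ι) (n := n) (ez := ez) (F1 := F1) (F2 := F2)
    (F3 := F3) (o := o) (K := K) (x := x) (U := U) (g := g) (u := u) (v := v) (Q1 := Q1) (Q2 := Q2)
    (Q3 := Q3) (x0 := x0) ht hs hr l) K
  have a4 := wsum_nonneg (fun l => bN_nonneg (ι := ι) (n := n) (ez := ez) (F1 := F1) (F2 := F2)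
    (F3 := F3) (o := o) (K := K) (x := x) (U := U) (g := g) (u := u) (v := v) (Q1 := Q1) (Q2 := Q2)
    (Q3 := Q3) (x0 := x0) ht hs hr (l + 1)) K
  have a5 := bN_nonneg (ι := ι) (n := n) (ez := ez) (F1 := F1) (F2 := F2)
    (F3 := F3) (o := o) (K := K) (x := x) (U := U) (g := g) (u := u) (v := v) (Q1 := Q1) (Q2 := Q2)
    (Q3 := Q3) (x0 := x0) ht hs hr 0
  have a6 := crb_nonneg (ι := ι) (n := n) (ez := ez) (F1 := F1) (F2 := F2)
    (F3 := F3) (o := o) (K := K) (x := x) (U := U) (g := g) (u := u) (v := v) (Q1 := Q1) (Q2 := Q2)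
    (Q3 := Q3) (x0 := x0) ht hs hr
  unfold fE
  refine ⟨?_, ?_, ?_, ?_, ?_, ?_, ?_⟩ <;> linarith

/-- variation of the path, lag `q` -/
theorem nmD_le (ht : 0 < p.t) (hs : 0 < s) (hr : 1 ≤ r) (q : ℕ) :
    (beI p r)⁻¹ * nmD K (cx K x).2.2 (cx K x).1
      (fun k x1 m => ah (p.lam s r) K (cx K x).2.1 (KT (p.lam s r) u x1) (o - 2) x0 x1 k m)
      (cS p ez U K v F2 x0) q ≤ vN 0 q ι p n ez F1 F2 F3 o K x s r U g u v Q1 Q2 Q3 x0 := by
  unfold nmD Dn vN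
  rw [mul_sum, ← range_eq_Ico]
  refine sum_le_sum fun k _ => ?_
  rw [mul_sum]
  refine sum_le_sum fun x1 _ => ?_
  rw [mul_sum]
  exact sum_le_sum fun z _ => chD ht hs hr o K x u x0 (k + q) x1 z _

/-- drift of the path, lag `q` -/
theorem nmE_le (ht : 0 < p.t) (hs : 0 < s) (hr : 1 ≤ r) (q : ℕ) :
    (beI p r)⁻¹ * nmE K (cx K x).2.2 (cx K x).1
      (fun k x1 m => eb (p.lam s r) K (cx K x).2.1 (KT (p.lam s r) u x1) (o - 2) x0 x1 (k + 1) m)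
      (cS p ez U K v F2 x0) q ≤ vN 0 q ι p n ez F1 F2 F3 o K x s r U g u v Q1 Q2 Q3 x0 := by
  unfold nmE En vN
  rw [mul_sum, ← range_eq_Ico]
  refine sum_le_sum fun k _ => ?_
  rw [mul_sum]
  refine sum_le_sum fun x1 _ => ?_
  rw [mul_sum]
  exact sum_le_sum fun z _ => chE ht hs hr o K x u x0 (k + q) x1 z _

/-- variation of the shifted path, lag `0` -/
theorem nmD1_le (ht : 0 < p.t) (hs : 0 < s) (hr : 1 ≤ r) :
    (beI p r)⁻¹ * nmD K (cx K x).2.2 (cx K x).1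
      (fun k x1 m => ah (p.lam s r) K (cx K x).2.1 (KT (p.lam s r) u x1) (o - 2) x0 x1 k m)
      (c1 K (cS p ez U K v F2 x0)) 0 ≤
        vN 1 0 ι p n ez F1 F2 F3 o K x s r U g u v Q1 Q2 Q3 x0 := by
  rw [nmD_c1]
  unfold Dn vN
  rw [mul_sum, ← range_eq_Ico]
  refine sum_le_sum fun k _ => ?_
  rw [mul_sum]
  refine sum_le_sum fun x1 _ => ?_
  rw [mul_sum]
  exact sum_le_sum fun z _ => chD ht hs hr o K x u x0 (k + 0) x1 z _

/-- drift of the shifted path, lag `0` -/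
theorem nmE1_le (ht : 0 < p.t) (hs : 0 < s) (hr : 1 ≤ r) :
    (beI p r)⁻¹ * nmE K (cx K x).2.2 (cx K x).1
      (fun k x1 m => eb (p.lam s r) K (cx K x).2.1 (KT (p.lam s r) u x1) (o - 2) x0 x1 (k + 1) m)
      (c1 K (cS p ez U K v F2 x0)) 0 ≤
        vN 1 0 ι p n ez F1 F2 F3 o K x s r U g u v Q1 Q2 Q3 x0 := by
  rw [nmE_c1]
  unfold En vN
  rw [mul_sum, ← range_eq_Ico]
  refine sum_le_sum fun k _ => ?_
  rw [mul_sum]
  refine sum_le_sum fun x1 _ => ?_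
  rw [mul_sum]
  exact sum_le_sum fun z _ => chE ht hs hr o K x u x0 (k + 0) x1 z _

/-- energy of the path at the start -/
theorem nmH_zero (q : ℕ) :
    nmH K (cx K x).2.2 (cx K x).1 (beI p r) (tS p s r o K x u x0) (cS p ez U K v F2 x0) q = 0 := by
  unfold nmH Wn
  refine sum_eq_zero fun x1 _ => sum_eq_zero fun z _ => ?_
  rw [cS_zero, zero_dotProduct]

/-- energy of the shifted path at the start -/
theorem nmH1_le (ht : 0 < p.t) (hs : 0 < s) (hr : 1 ≤ r) :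
    nmH K (cx K x).2.2 (cx K x).1 (beI p r) (tS p s r o K x u x0)
      (c1 K (cS p ez U K v F2 x0)) 0 ≤
        oN 0 ι p n ez F1 F2 F3 o K x s r U g u v Q1 Q2 Q3 x0 := by
  rcases Nat.eq_zero_or_pos K with h0 | h0
  · subst h0
    refine le_trans (le_of_eq ?_) (oN_nonneg ht hs hr 0)
    unfold nmH Wn c1
    refine sum_eq_zero fun x1 _ => sum_eq_zero fun z _ => ?_
    rw [show min (0 + 1) 0 = 0 by omega, cS_zero, zero_dotProduct]
  · rw [nmH_c1 h0]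
    exact le_of_eq rfl

/-- **The pair at one `x0`.** -/
theorem pt (ht : 0 < p.t) (ht1 : p.t ≤ 1) (he0 : 0 < p.e0) (he01 : p.e0 ≤ 1) (hd : 0 < p.d)
    (hd1 : p.d ≤ 1) (ho : o = 1 ∨ o = -1) (hKn : K ≤ n) (hs : 0 < s) (hr : 1 ≤ r) {P cP2 : ℝ}
    (hcls : H305.Cls K x s r P U g u v) (q2 : BSl n ez cP2 F2 Q2) (hez : 0 < ez)
    {z : ℝ} {J : ℕ} (hz : gI p s r ≤ z) (hJ : (2 * cCI p s r) ^ 2 ≤ 4 ^ J * z ^ 2) :
    pBC (p.al U K) o K (cx K x) (beI p r) (p.lam s r) u (cb p s r U K u F3 Q3)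
        (C1 p ez U K v F2) (tauI p s r) z x0 ≤
      2160000 * ((J : ℝ) + 1) ^ 3 *
        (√(z ^ 2 * fE ι p n ez F1 F2 F3 o K x s r U g u v Q1 Q2 Q3 x0 *
          (tauI p s r ^ 2 * fB ι p n ez F1 F2 F3 o K x s r U g u v Q1 Q2 Q3 x0)) +
        tauI p s r ^ 2 * fE ι p n ez F1 F2 F3 o K x s r U g u v Q1 Q2 Q3 x0) := by
  have hl : 0 < p.lam s r := H401.Num.lam_pos (p := p) ht hs hr
  have hth : 0 < p.th s r := H401.Num.th_pos (p := p) ht hs hr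
  have hbe : 0 < beI p r := be_pos ht hr
  have hbe1 : beI p r ≤ 1 := beI_le_one ht ht1 he0.le hr
  have hy : 0 < tauI p s r := by
    unfold tauI
    positivity
  have hg : 0 < gI p s r := by
    have h1 : 0 < p.t / r := div_pos ht (by linarith)
    have h2 : 0 < (p.t / r) ^ (p.e0 / 4) := Real.rpow_pos_of_pos h1 _
    unfold gI
    positivity
  have hz0 : 0 < z := lt_of_lt_of_le hg hz
  have hT := H652.wt_Th (fun x1 => tr_T hl K u x1) (cx K x).2.1 (o - 2) x0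
  obtain ⟨e0, e1, e2, e3, e4, e5, e6⟩ := fE_parts (ι := ι) (p := p) (n := n) (ez := ez) (F1 := F1)
    (F2 := F2) (F3 := F3) (o := o) (K := K) (x := x) (s := s) (r := r) (U := U) (g := g) (u := u)
    (v := v) (Q1 := Q1) (Q2 := Q2) (Q3 := Q3) (x0 := x0) ht hs hr
  have d0 : 0 ≤ dB p s r U K x u F3 Q3 x0 := H652.dB_nonneg x x0
  have d1 : 0 ≤ payS (beI p r) (p.lam s r) o K (cx K x) u
      (fun k => H652.bS p s r U K u F3 Q3 x0 k) x0 := H652.payS_nonneg hbe hl _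
  have dd : dB p s r U K x u F3 Q3 x0 ≤
      fB ι p n ez F1 F2 F3 o K x s r U g u v Q1 Q2 Q3 x0 := le_add_of_nonneg_right d1
  have dp : payS (beI p r) (p.lam s r) o K (cx K x) u
      (fun k => H652.bS p s r U K u F3 Q3 x0 k) x0 ≤
      fB ι p n ez F1 F2 F3 o K x s r U g u v Q1 Q2 Q3 x0 := le_add_of_nonneg_left d0
  have hB0 : 0 ≤ fB ι p n ez F1 F2 F3 o K x s r U g u v Q1 Q2 Q3 x0 := d0.trans dd
  generalize hE' : fE ι p n ez F1 F2 F3 o K x s r U g u v Q1 Q2 Q3 x0 = E at *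
  generalize hB' : fB ι p n ez F1 F2 F3 o K x s r U g u v Q1 Q2 Q3 x0 = EB at *
  refine (H329.WinBC.pBC_cls ht hs hr ez U o K x u v F2 F3 Q3 hy hz0 x0).trans ?_
  refine (le_of_eq (GW_win_cut (S := (cx K x).1) (R := (cx K x).2.2) (cx K x).2.1 (cP o x0) _
    _).symm).trans ?_
  have hJ' : 2 * cCI p s r ^ 2 ≤ z ^ 2 * 4 ^ J := by nlinarith [sq_nonneg (cCI p s r)]
  refine (H736.fix_BC2 (be := beI p r) (T := tS p s r o K x u x0)
    (e := fun k x1 m => eb (p.lam s r) K (cx K x).2.1 (KT (p.lam s r) u x1) (o - 2) x0 x1 (k + 1) m)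
    (d := fun k x1 m => ah (p.lam s r) K (cx K x).2.1 (KT (p.lam s r) u x1) (o - 2) x0 x1 k m)
    hbe hbe1 (s := z ^ 2) (q := p.th s r ^ 2) (τ := 2) (by positivity) (by positivity)
    (by norm_num) le_rfl hT
    (fun k x1 m => H652.Th_le_two (M := (cx K x).2.1) (tr_T hl K u x1) (o - 2) x0 x1 k m)
    (N := K) (b := H652.bS p s r U K u F3 Q3 x0)
    (c := H170.Win.cut K (cx K x).1 (cx K x).2.2 (cS p ez U K v F2 x0))
    (Pb := PbS p s r U K u F3 Q3 x0) (Pc := Pr (cS p ez U K v F2 x0))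
    (H652.PbS_off x0) (cut_row pr_not) (H652.bS_capk hth x0) (H652.bS_capk1 hth x0)
    (H652.bS_capN hth x0) (C := cCI p s r ^ 2)
    (fun k a n' m hka haK => H74.CapBC.cut_capX ht ht1 hd1 he0.le hs hr hez hKn hcls q2 x0
      (by omega) (by omega) (by omega) n' m)
    (fun k a n' m hka haK => H74.CapBC.cut_capX ht ht1 hd1 he0.le hs hr hez hKn hcls q2 x0
      (by omega) (by omega) (by omega) n' m)
    (J := J) hJ' (R₁ := (cx K x).2.1) (S₁ := (cx K x).1) (T₁ := (cx K x).2.2) (cc := cP o x0)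
    (H677.cP_pl ho x0) (E := E) (EB := EB) e0 hB0
    ((H652.bS_hB1 x x0).trans dd) ((H652.bS_hB2 x x0).trans dd)
    ((H652.pay_hB3 hbe hl _).trans dp) ((H652.pay_hB4 hbe _).trans dp)
    ?_ ?_ ?_ ?_ ?_ ?_ ?_ ?_ ?_).trans ?_
  · rw [c1_cut, nmH_cut]
    exact (nmH1_le (Q1 := Q1) (Q2 := Q2) (Q3 := Q3) (F1 := F1) (F3 := F3) (g := g) (n := n)
      ht hs hr).trans e3
  · rw [c1_cut, nmD_cut]
    exact (nmD1_le (Q1 := Q1) (Q2 := Q2) (Q3 := Q3) (F1 := F1) (F3 := F3) (g := g) (n := n)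
      ht hs hr).trans e2
  · rw [c1_cut, nmE_cut]
    exact (nmE1_le (Q1 := Q1) (Q2 := Q2) (Q3 := Q3) (F1 := F1) (F3 := F3) (g := g) (n := n)
      ht hs hr).trans e2
  · refine le_trans (le_of_eq ?_) e6
    unfold fCRB
    refine sum_congr rfl fun k hk => sum_congr rfl fun x1 hx1 => sum_congr rfl fun w hw => ?_
    rw [wE_cut (by have := (mem_Ico.1 hk).2; omega) hx1 hw]
    rfl
  · refine le_trans (le_of_eq ?_) ((Wn_bN (F1 := F1) (F3 := F3) ht hs hr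
      (P := Pr (cS p ez U K v F2 x0)) (fun k w m h => pr_ch k w m h) n g Q1 Q2 Q3).trans e5)
    exact sum_congr rfl fun k hk => Wn_rs_cut (by have := (mem_Ico.1 hk).2; omega) _ _ _
  · rw [nmH_cut]
    refine le_trans (le_of_eq ?_) e0
    unfold H912.wS
    exact sum_eq_zero fun l _ => by rw [nmH_zero, mul_zero]
  · rw [nmD_cut]
    refine (H912.wS_mono fun l => ?_).trans e1
    exact nmD_le (Q1 := Q1) (Q2 := Q2) (Q3 := Q3) (F1 := F1) (F3 := F3) (g := g) (n := n) ht hs hr l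
  · rw [nmE_cut]
    refine (H912.wS_mono fun l => ?_).trans e1
    exact nmE_le (Q1 := Q1) (Q2 := Q2) (Q3 := Q3) (F1 := F1) (F3 := F3) (g := g) (n := n) ht hs hr l
  · rw [nmB_cut]
    refine (H912.wS_mono fun l => ?_).trans e4
    exact nmB_bN (F1 := F1) (F3 := F3) ht hs hr
      (P := Pr (cS p ez U K v F2 x0)) (fun k w m h => pr_ch k w m h) l n g Q1 Q2 Q3
  · have hq : p.th s r ^ 2 ≤ tauI p s r ^ 2 := by
      unfold tauI
      nlinarith [sq_nonneg (p.th s r)]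
    have h1 : √(z ^ 2 * E * (p.th s r ^ 2 * EB)) ≤ √(z ^ 2 * E * (tauI p s r ^ 2 * EB)) := by
      refine Real.sqrt_le_sqrt ?_
      gcongr
    have h2 : p.th s r ^ 2 * E ≤ tauI p s r ^ 2 * E := by gcongr
    calc 18 * (120000 * ((J : ℝ) + 1) ^ 3) *
          (√(z ^ 2 * E * (p.th s r ^ 2 * EB)) + p.th s r ^ 2 * E)
        ≤ 18 * (120000 * ((J : ℝ) + 1) ^ 3) *
          (√(z ^ 2 * E * (tauI p s r ^ 2 * EB)) + tauI p s r ^ 2 * E) := by gcongr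
      _ = _ := by ring

end one

/-- **The numbers of the moving pair `(Bg, Cg)`.** -/
theorem numBC : NumBC 2160000 2 := by
  refine H222.Of.numBC_of sumU_E sumU_B ?_
  intro ι _ _ p n ez F1 F2 F3 o K x s r U g u v Q1 Q2 Q3 ht ht1 he0 he01 hk3 hk31 hd hd1 hc he
    hcP hL ho hKn hs hr hcls q1 q2 q3 hez f1 f2
  have hl : 0 < p.lam s r := H401.Num.lam_pos (p := p) ht hs hr
  refine ⟨fun x0 => (fE_parts ht hs hr).1, fun x0 => add_nonneg (H652.dB_nonneg x x0)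
    (H652.payS_nonneg (be_pos ht hr) hl _), fun t _ x0 _ z J hz hz2 hJ => ?_⟩
  exact pt ht ht1 he0 he01 hd hd1 ho hKn hs hr hcls.toCls q2 hez hz hJ

/-- **The leaf of the moving pair `(Bg, Cg)`.** -/
theorem lBCg : LBCg := lbc_end (by norm_num) (by norm_num) numBC

end

end Vale.Agent.P141.H939.BC
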