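import Vale.Agent.P141.H677.GenM

/-!
# P141, line (A): from the price of one slot to the price of the slot, any slot predicate

* `SlP` : properties of a slot with two numbers `κ`, `E` at class data;
* `PriceP P D T` : the price of `T` on every plane of every grid for every slot with `P`, energy
  number `E ≤ EM`, any constant `EM`;
* `GenP P D` : the slot of the flow part is a sum of slots with `P`, energy numbers
  `B₀ t ^ (-b (c + d)) (1 + log (r / t) + g) ^ q (t / r) ^ e₀ / 2 ^ g`;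
* `partG_of_P : SubT T → PriceP P D T → GenP P D → PartG D T`, `leafM_of_P`.
-/

namespace Vale.Agent.P141.H939

open Finset Matrix
open Vale.Agent.P141.PL (Pt iv hs ix mem_iv ix_ix cb mem_cb cx card_iv)
open Vale.Agent.P141.PL.H315 (Tri avg)
open Vale.Agent.P141.H48 (US ES BSl sst)
open Vale.Agent.P141.H795 (E8)
open Vale.Agent.P141.H401 (StX PartX Bun PartF)
open Vale.Agent.P141.H305 (ClsM kapM Cls)
open Vale.Agent.P141.H677 Vale.Agent.P141.H677.Sk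

noncomputable section

open scoped Classical

set_option linter.unusedSectionVars false

/-! ### Numbers -/

theorem two_rpow_neg_lt {θ : ℝ} (hθ : 0 < θ) : (2 : ℝ) ^ (-θ) < 1 := by
  rw [Real.rpow_neg (by norm_num)]
  exact inv_lt_one_of_one_lt₀ (Real.one_lt_rpow (by norm_num) hθ)

/-- **The sum over the slots.** -/
theorem gen_num (p q : ℕ) {θ η e0 B0 : ℝ} (hθ : 0 < θ) (hη : 0 < η) (hB0 : 0 ≤ B0) :
    ∃ C : ℝ, 0 ≤ C ∧ ∀ ρ : ℝ, 1 ≤ ρ → ∀ W : ℝ, 0 ≤ W → ∀ (N : ℕ) (E Lg : ℕ → ℝ),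
      (∀ g < N, 0 ≤ E g) → (∀ g < N, 0 ≤ Lg g) →
      (∀ g < N, Lg g ≤ B0 * (1 + Real.log ρ + g)) →
      (∀ g < N, E g ≤ B0 * (W * (1 + Real.log ρ + g) ^ q * ρ ^ (-e0) / 2 ^ g)) →
      ∑ g ∈ range N, Lg g ^ p * E g ^ θ ≤ C * (W ^ θ * ρ ^ (η - e0 * θ)) := by
  obtain ⟨C1, hC1, H1⟩ := H582.one_add_log_pow (p + ⌈(q : ℝ) * θ⌉₊) hη
  obtain ⟨C2, hC2, H2⟩ := H582.geo_sum (p + ⌈(q : ℝ) * θ⌉₊) (Real.rpow_nonneg (by norm_num) _)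
    (two_rpow_neg_lt hθ)
  refine ⟨B0 ^ p * B0 ^ θ * C1 * C2, by positivity, ?_⟩
  intro ρ hρ W hW N E Lg hE hL hLB hEB
  have hρ0 : 0 < ρ := by linarith
  have hlog : 0 ≤ Real.log ρ := Real.log_nonneg hρ
  set m := p + ⌈(q : ℝ) * θ⌉₊ with hm
  have hterm : ∀ g ∈ range N, Lg g ^ p * E g ^ θ ≤
      B0 ^ p * B0 ^ θ * (1 + Real.log ρ) ^ m * (W ^ θ * ρ ^ (-(e0 * θ))) *
        (((g : ℝ) + 2) ^ m * ((2 : ℝ) ^ (-θ)) ^ g) := by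
    intro g hg
    have hg' := mem_range.1 hg
    have hg0 : (0 : ℝ) ≤ g := Nat.cast_nonneg g
    set X : ℝ := 1 + Real.log ρ + g with hX
    have hX1 : 1 ≤ X := by linarith
    have hX0 : 0 < X := by linarith
    have a1 : Lg g ^ p ≤ (B0 * X) ^ p := pow_le_pow_left₀ (hL g hg') (hLB g hg') p
    have a2 : E g ^ θ ≤ (B0 * (W * X ^ q * ρ ^ (-e0) / 2 ^ g)) ^ θ :=
      Real.rpow_le_rpow (hE g hg') (hEB g hg') hθ.le
    have a3 : (B0 * (W * X ^ q * ρ ^ (-e0) / 2 ^ g)) ^ θ =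
        B0 ^ θ * (W ^ θ * X ^ ((q : ℝ) * θ) * ρ ^ (-(e0 * θ)) * ((2 : ℝ) ^ (-θ)) ^ g) := by
      have r1 : 0 ≤ ρ ^ (-e0) := (Real.rpow_pos_of_pos hρ0 _).le
      have r2 : (0 : ℝ) ≤ X ^ q := by positivity
      rw [Real.mul_rpow hB0 (by positivity), div_eq_mul_inv,
        Real.mul_rpow (by positivity) (by positivity),
        Real.mul_rpow (mul_nonneg hW r2) r1, Real.mul_rpow hW r2]
      have e1 : (X ^ q : ℝ) ^ θ = X ^ ((q : ℝ) * θ) := by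
        rw [← Real.rpow_natCast X q, ← Real.rpow_mul hX0.le]
      have e2 : (ρ ^ (-e0)) ^ θ = ρ ^ (-(e0 * θ)) := by
        rw [← Real.rpow_mul hρ0.le]
        congr 1
        ring
      have e3 : (((2 : ℝ) ^ g)⁻¹) ^ θ = ((2 : ℝ) ^ (-θ)) ^ g := by
        rw [Real.inv_rpow (by positivity), ← Real.rpow_natCast 2 g, ← Real.rpow_mul (by norm_num),
          ← Real.rpow_natCast ((2 : ℝ) ^ (-θ)) g, ← Real.rpow_mul (by norm_num),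
          ← Real.rpow_neg (by norm_num)]
        congr 1
        ring
      rw [e1, e2, e3]
    have a4 : X ^ ((q : ℝ) * θ) ≤ X ^ (⌈(q : ℝ) * θ⌉₊) := by
      rw [← Real.rpow_natCast X]
      exact Real.rpow_le_rpow_of_exponent_le hX1 (Nat.le_ceil _)
    have a5 : X ^ p * X ^ (⌈(q : ℝ) * θ⌉₊) = X ^ m := by rw [hm, pow_add]
    have a6 : X ≤ (1 + Real.log ρ) * ((g : ℝ) + 2) := by nlinarith
    have a7 : X ^ m ≤ (1 + Real.log ρ) ^ m * ((g : ℝ) + 2) ^ m := by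
      rw [← mul_pow]
      exact pow_le_pow_left₀ hX0.le a6 m
    have n1 : 0 ≤ W ^ θ := Real.rpow_nonneg hW _
    have n2 : 0 ≤ ρ ^ (-(e0 * θ)) := (Real.rpow_pos_of_pos hρ0 _).le
    have n3 : 0 ≤ ((2 : ℝ) ^ (-θ)) ^ g := by positivity
    have n4 : 0 ≤ B0 ^ θ := Real.rpow_nonneg hB0 _
    calc Lg g ^ p * E g ^ θ ≤ (B0 * X) ^ p * (B0 * (W * X ^ q * ρ ^ (-e0) / 2 ^ g)) ^ θ :=
          mul_le_mul a1 a2 (Real.rpow_nonneg (hE g hg') _) (by positivity)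
      _ = B0 ^ p * B0 ^ θ * (X ^ p * X ^ ((q : ℝ) * θ)) * (W ^ θ * ρ ^ (-(e0 * θ))) *
          ((2 : ℝ) ^ (-θ)) ^ g := by rw [a3, mul_pow]; ring
      _ ≤ B0 ^ p * B0 ^ θ * (X ^ p * X ^ (⌈(q : ℝ) * θ⌉₊)) * (W ^ θ * ρ ^ (-(e0 * θ))) *
          ((2 : ℝ) ^ (-θ)) ^ g := by gcongr
      _ ≤ B0 ^ p * B0 ^ θ * ((1 + Real.log ρ) ^ m * ((g : ℝ) + 2) ^ m) *
          (W ^ θ * ρ ^ (-(e0 * θ))) * ((2 : ℝ) ^ (-θ)) ^ g := by
          rw [a5]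
          gcongr
      _ = _ := by ring
  refine (sum_le_sum hterm).trans ?_
  rw [← mul_sum]
  have n1 : 0 ≤ W ^ θ := Real.rpow_nonneg hW _
  have n2 : 0 ≤ ρ ^ (-(e0 * θ)) := (Real.rpow_pos_of_pos hρ0 _).le
  have n4 : 0 ≤ B0 ^ θ := Real.rpow_nonneg hB0 _
  have e4 : ρ ^ η * ρ ^ (-(e0 * θ)) = ρ ^ (η - e0 * θ) := by
    rw [← Real.rpow_add hρ0]
    congr 1
  calc B0 ^ p * B0 ^ θ * (1 + Real.log ρ) ^ m * (W ^ θ * ρ ^ (-(e0 * θ))) *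
        ∑ g ∈ range N, ((g : ℝ) + 2) ^ m * ((2 : ℝ) ^ (-θ)) ^ g
      ≤ B0 ^ p * B0 ^ θ * (C1 * ρ ^ η) * (W ^ θ * ρ ^ (-(e0 * θ))) * C2 := by
        have h1 := H1 ρ hρ
        have h2 := H2 N
        have h3 : 0 ≤ (1 + Real.log ρ) ^ m := by positivity
        gcongr
    _ = B0 ^ p * B0 ^ θ * C1 * C2 * (W ^ θ * (ρ ^ η * ρ ^ (-(e0 * θ)))) := by ring
    _ = _ := by rw [e4]

/-- the energy numbers are bounded -/
theorem gen_bd (q : ℕ) {e0 : ℝ} (he : 0 < e0) : ∃ C : ℝ, 1 ≤ C ∧ ∀ ρ : ℝ, 1 ≤ ρ → ∀ W : ℝ, 0 ≤ W →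
    W ≤ ρ ^ (e0 / 2) → ∀ g : ℕ, W * (1 + Real.log ρ + g) ^ q * ρ ^ (-e0) / 2 ^ g ≤ C := by
  obtain ⟨C1, hC1, H1⟩ := H582.one_add_log_pow q (half_pos he)
  obtain ⟨C2, hC2, H2⟩ := H582.geo_sum q (q := (1 / 2 : ℝ)) (by norm_num) (by norm_num)
  refine ⟨C1 * C2 + 1, by nlinarith, ?_⟩
  intro ρ hρ W hW hWρ g
  have hρ0 : 0 < ρ := by linarith
  have hlog : 0 ≤ Real.log ρ := Real.log_nonneg hρ
  have hg0 : (0 : ℝ) ≤ g := Nat.cast_nonneg g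
  have h1 : ((g : ℝ) + 2) ^ q * (1 / 2 : ℝ) ^ g ≤ C2 := by
    refine le_trans ?_ (H2 (g + 1))
    exact single_le_sum (f := fun i : ℕ => ((i : ℝ) + 2) ^ q * (1 / 2 : ℝ) ^ i)
      (fun i _ => by positivity) (self_mem_range_succ g)
  have h2 : (1 + Real.log ρ + g) ^ q ≤ (1 + Real.log ρ) ^ q * ((g : ℝ) + 2) ^ q := by
    rw [← mul_pow]
    exact pow_le_pow_left₀ (by linarith) (by nlinarith) q
  have h3 : W * ρ ^ (-e0) * (1 + Real.log ρ) ^ q ≤ C1 := by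
    have r1 : 0 < ρ ^ (-e0) := Real.rpow_pos_of_pos hρ0 _
    have r2 : 0 < ρ ^ (e0 / 2) := Real.rpow_pos_of_pos hρ0 _
    calc W * ρ ^ (-e0) * (1 + Real.log ρ) ^ q ≤ ρ ^ (e0 / 2) * ρ ^ (-e0) * (C1 * ρ ^ (e0 / 2)) := by
          have := H1 ρ hρ
          gcongr
      _ = C1 * (ρ ^ (e0 / 2) * ρ ^ (-e0) * ρ ^ (e0 / 2)) := by ring
      _ = C1 := by
          rw [← Real.rpow_add hρ0, ← Real.rpow_add hρ0]
          have : e0 / 2 + -e0 + e0 / 2 = 0 := by ring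
          rw [this, Real.rpow_zero, mul_one]
  have r1 : 0 < ρ ^ (-e0) := Real.rpow_pos_of_pos hρ0 _
  calc W * (1 + Real.log ρ + g) ^ q * ρ ^ (-e0) / 2 ^ g
      ≤ W * ((1 + Real.log ρ) ^ q * ((g : ℝ) + 2) ^ q) * ρ ^ (-e0) / 2 ^ g := by gcongr
    _ = (W * ρ ^ (-e0) * (1 + Real.log ρ) ^ q) * (((g : ℝ) + 2) ^ q * (1 / 2 : ℝ) ^ g) := by
        rw [one_div, inv_pow]
        ring
    _ ≤ C1 * C2 := mul_le_mul h3 h1 (by positivity) hC1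
    _ ≤ C1 * C2 + 1 := by linarith

theorem W_le {t r e0 b2 c d : ℝ} (ht : 0 < t) (hr : 1 ≤ r) (ht1 : t ≤ 1) (hb2 : 0 ≤ b2)
    (hc : 0 ≤ c) (hd : 0 < d) (hcc3 : c ≤ e0 / (4 * (b2 + 1))) (hdd3 : d ≤ e0 / (4 * (b2 + 1))) :
    t ^ (-(b2 * (c + d))) ≤ (r / t) ^ (e0 / 2) := by
  have hρ : 1 ≤ r / t := by
    rw [le_div_iff₀ ht]
    linarith
  have k1 : b2 * (c + d) ≤ e0 / 2 := by
    have k2 : c + d ≤ e0 / (4 * (b2 + 1)) + e0 / (4 * (b2 + 1)) := add_le_add hcc3 hdd3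
    have k3 : e0 / (4 * (b2 + 1)) + e0 / (4 * (b2 + 1)) = e0 / (2 * (b2 + 1)) := by
      field_simp
      ring
    have he0 : 0 < e0 := by
      have k6 : 0 < e0 / (4 * (b2 + 1)) := hd.trans_le hdd3
      have k7 : 0 < 4 * (b2 + 1) := by positivity
      by_contra hcon
      have k8 : e0 / (4 * (b2 + 1)) ≤ 0 := div_nonpos_of_nonpos_of_nonneg (not_lt.1 hcon) k7.le
      linarith
    have k4 : b2 * (c + d) ≤ b2 * (e0 / (2 * (b2 + 1))) :=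
      mul_le_mul_of_nonneg_left (by linarith) hb2
    have k5 : b2 * (e0 / (2 * (b2 + 1))) ≤ e0 / 2 := by
      rw [← mul_div_assoc, div_le_div_iff₀ (by positivity) (by norm_num)]
      nlinarith
    linarith
  have k6 : (1 / t) ≤ r / t := by gcongr
  calc t ^ (-(b2 * (c + d))) = (1 / t) ^ (b2 * (c + d)) := by
        rw [one_div, Real.inv_rpow ht.le, Real.rpow_neg ht.le]
    _ ≤ (r / t) ^ (b2 * (c + d)) :=
        Real.rpow_le_rpow (by positivity) k6 (by positivity)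
    _ ≤ (r / t) ^ (e0 / 2) := Real.rpow_le_rpow_of_exponent_le hρ k1

theorem fin_eq {t r w b1 b2 c d e0 θ C C2 X Y Z : ℝ} (ht : 0 < t) (hr : 1 ≤ r) :
    C * (t * (r / t) ^ w * t ^ (-(b1 * (c + d))) * X * Y * Z) *
      (C2 * ((t ^ (-(b2 * (c + d)))) ^ θ * (r / t) ^ (e0 * θ / 2 - e0 * θ))) =
    C * C2 * (t * (t / r) ^ (e0 * θ / 2 - w) * t ^ (-((b1 + b2 * θ) * (c + d))) * X * Y * Z) := by
  have hr0 : 0 < r := by linarith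
  have hρ0 : 0 < r / t := by positivity
  have e5 : (t ^ (-(b2 * (c + d)))) ^ θ = t ^ (-(b2 * θ * (c + d))) := by
    rw [← Real.rpow_mul ht.le]
    congr 1
    ring
  have e6 : t ^ (-(b1 * (c + d))) * t ^ (-(b2 * θ * (c + d))) =
      t ^ (-((b1 + b2 * θ) * (c + d))) := by
    rw [← Real.rpow_add ht]
    congr 1
    ring
  have e7 : (r / t) ^ w * (r / t) ^ (e0 * θ / 2 - e0 * θ) = (t / r) ^ (e0 * θ / 2 - w) := by
    rw [← Real.rpow_add hρ0, ← inv_div r t, Real.inv_rpow hρ0.le, ← Real.rpow_neg hρ0.le]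
    congr 1
    ring
  rw [e5, ← e6, ← e7]
  ring

/-! ### Slots -/

/-- properties of a slot with two numbers `κ`, `E` at class data and families -/
abbrev SlP : Type 1 :=
  ∀ (ι : Type) [Fintype ι] [DecidableEq ι], H401.Num → ℕ → ℝ → (ℕ → Pt → ℝ) → (ℕ → Pt → ℝ) →
    (ℕ → Pt → ℝ) → ℤ → ℕ → Pt → ℝ → ℝ → Tri → (ℤ → ℤ → ℝ) → (ℤ → ℤ → ι → ℝ) →
    (ℤ → ℤ → ι → ℝ) → FamA → FamV ι → FamV ι → Slt ι → ℝ → ℝ → Prop

/-- **The price of a functional of slots on every plane of every grid**, slots with `P`, cap number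
`κ ≥ 1`, energy number `0 < E ≤ EM`. -/
def PriceP (P : SlP) (D : Bun) (T : FunG) : Prop :=
  ∀ a : ℝ, 0 < a → a ≤ 1 →
  ∃ es : ℝ, 0 < es ∧ ∀ e0 : ℝ, 0 < e0 → e0 ≤ es →
  ∃ k8s : ℝ, 0 < k8s ∧ ∀ k8 : ℝ, 0 < k8 → k8 ≤ k8s →
  ∃ k3s : ℝ, 0 < k3s ∧ ∀ k3 : ℝ, 0 < k3 → k3 ≤ k3s →
  ∃ (p : ℕ) (θ w b c1 d1 : ℝ), 0 < θ ∧ 2 * w < e0 * θ ∧ 0 ≤ b ∧ 0 < c1 ∧ 0 < d1 ∧
  ∀ c : ℝ, 0 ≤ c → c ≤ c1 → ∀ d : ℝ, 0 < d → d ≤ d1 →
  ∀ Kt e cP L : ℝ, 0 < Kt → 1 ≤ e → 0 ≤ cP → 1 ≤ L → ∀ CD : ℝ, 1 ≤ CD → ∀ EM : ℝ, 1 ≤ EM →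
  ∃ C : ℝ, 0 ≤ C ∧
  ∀ t : ℝ, 0 < t → t ≤ 1 → ∀ (n : ℕ) (ez : ℝ) (F1 F2 F3 : ℕ → Pt → ℝ),
    US n (Kt * t ^ (1 - c)) e cP F1 → US n (Kt * t ^ (1 - c)) e cP F3 → ES n ez cP F2 →
  ∀ o : ℤ, o = 1 ∨ o = -1 → ∀ K ≤ n, ∀ (x : Pt) (ι : Type) [Fintype ι] [DecidableEq ι]
    (s r : ℝ) (U : Tri) (g : ℤ → ℤ → ℝ) (u v : ℤ → ℤ → ι → ℝ), 0 < s → 1 ≤ r →
    ClsM K x s r (L * t ^ (2 - c) * √s) (kapM L t a s r) U g u v →
    ∀ (A : FamA) (b' C' : FamV ι),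
      D ι ⟨a, e0, k8, k3, c, d, Kt, e, cP, L, CD, t⟩ n ez F1 F2 F3 o K x s r U g u v A b' C' →
    ∀ (R : Slt ι) (κ E : ℝ), 1 ≤ κ → 0 < E → E ≤ EM →
      P ι ⟨a, e0, k8, k3, c, d, Kt, e, cP, L, CD, t⟩ n ez F1 F2 F3 o K x s r U g u v A b' C'
        R κ E →
    ∀ h ∈ cb K 0, ∀ j ∈ Icc (0 : ℤ) 2, ∀ q ∈ E8, T ι K (cx K x) R A b' C' h j q ≤
      C * ((1 + Real.log κ + Real.log (r / t)) ^ p * E ^ θ *
        (t * (r / t) ^ w * t ^ (-(b * (c + d))) * s ^ (5 / 4 : ℝ) * √ez * 8 ^ K))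

/-- **The slot of the flow part is a sum of slots with `P`.** -/
def GenP (P : SlP) (D : Bun) : Prop :=
  ∀ a : ℝ, 0 < a → a ≤ 1 →
  ∃ es : ℝ, 0 < es ∧ ∀ e0 : ℝ, 0 < e0 → e0 ≤ es →
  ∃ k8s : ℝ, 0 < k8s ∧ ∀ k8 : ℝ, 0 < k8 → k8 ≤ k8s →
  ∃ k3s : ℝ, 0 < k3s ∧ ∀ k3 : ℝ, 0 < k3 → k3 ≤ k3s →
  ∃ (q : ℕ) (b c1 d1 : ℝ), 0 ≤ b ∧ 0 < c1 ∧ 0 < d1 ∧
  ∀ c : ℝ, 0 ≤ c → c ≤ c1 → ∀ d : ℝ, 0 < d → d ≤ d1 →
  ∀ Kt e cP L : ℝ, 0 < Kt → 1 ≤ e → 0 ≤ cP → 1 ≤ L → ∀ CD : ℝ, 1 ≤ CD → ∃ B0 : ℝ, 1 ≤ B0 ∧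
  ∀ t : ℝ, 0 < t → t ≤ 1 → ∀ (n : ℕ) (ez : ℝ) (F1 F2 F3 : ℕ → Pt → ℝ),
    US n (Kt * t ^ (1 - c)) e cP F1 → US n (Kt * t ^ (1 - c)) e cP F3 → ES n ez cP F2 →
  ∀ o : ℤ, o = 1 ∨ o = -1 → ∀ K ≤ n, ∀ (x : Pt) (ι : Type) [Fintype ι] [DecidableEq ι]
    (s r : ℝ) (U : Tri) (g' : ℤ → ℤ → ℝ) (u v : ℤ → ℤ → ι → ℝ), 0 < s → 1 ≤ r →
    ClsM K x s r (L * t ^ (2 - c) * √s) (kapM L t a s r) U g' u v →
    ∀ (A : FamA) (b' C' : FamV ι),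
      D ι ⟨a, e0, k8, k3, c, d, Kt, e, cP, L, CD, t⟩ n ez F1 F2 F3 o K x s r U g' u v A b' C' →
    ∀ sg : ℕ → Pt → ℝ, (∀ k m, |sg k m| ≤ 1) →
    ∃ (N : ℕ) (R : ℕ → Slt ι) (κ E : ℕ → ℝ),
      sl ((⟨a, e0, k8, k3, c, d, Kt, e, cP, L, CD, t⟩ : H401.Num).al U K) o K (cx K x) sg
        ((⟨a, e0, k8, k3, c, d, Kt, e, cP, L, CD, t⟩ : H401.Num).lam s r) u =
        (fun x0 j z x1 => ∑ g ∈ range N, R g x0 j z x1) ∧
      ∀ g < N, 1 ≤ κ g ∧ Real.log (κ g) ≤ B0 * (1 + Real.log (r / t) + g) ∧ 0 < E g ∧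
        E g ≤ B0 * (t ^ (-(b * (c + d))) * (1 + Real.log (r / t) + g) ^ q * (t / r) ^ e0 / 2 ^ g) ∧
        P ι ⟨a, e0, k8, k3, c, d, Kt, e, cP, L, CD, t⟩ n ez F1 F2 F3 o K x s r U g' u v A b' C'
          (R g) (κ g) (E g)

/-- **From one slot to the slot of the flow part.** -/
theorem partG_of_P {P : SlP} {D : Bun} {T : FunG} (hT : SubT T) (H : PriceP P D T)
    (HG : GenP P D) : PartG D T := by
  refine H186.ClosX.partX_of_gain (Φ := fun ι _ _ p n ez F1 F2 F3 o K x s r U g u v B =>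
    ∀ (A : FamA) (b C : FamV ι), D ι p n ez F1 F2 F3 o K x s r U g u v A b C →
      ∀ sg : ℕ → Pt → ℝ, (∀ k m, |sg k m| ≤ 1) → ∀ h ∈ cb K 0, ∀ j ∈ Icc (0 : ℤ) 2, ∀ e ∈ E8,
        T ι K (cx K x) (sl (p.al U K) o K (cx K x) sg (p.lam s r) u) A b C h j e ≤ B) ?_ ?_
  · intro ι _ _ p n ez F1 F2 F3 o K x s r U g u v B B' hB h A b C hD sg hsg h' hh j hj e he
    exact (h A b C hD sg hsg h' hh j hj e he).trans hB
  intro a ha ha1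
  obtain ⟨es1, hes1, H⟩ := H a ha ha1
  obtain ⟨es2, hes2, HG⟩ := HG a ha ha1
  refine ⟨min es1 es2, lt_min hes1 hes2, fun e0 he0 he0' => ?_⟩
  obtain ⟨k81, hk81, H⟩ := H e0 he0 (he0'.trans (min_le_left _ _))
  obtain ⟨k82, hk82, HG⟩ := HG e0 he0 (he0'.trans (min_le_right _ _))
  refine ⟨min k81 k82, lt_min hk81 hk82, fun k8 hk8 hk8' => ?_⟩
  obtain ⟨k31, hk31, H⟩ := H k8 hk8 (hk8'.trans (min_le_left _ _))
  obtain ⟨k32, hk32, HG⟩ := HG k8 hk8 (hk8'.trans (min_le_right _ _))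
  refine ⟨min k31 k32, lt_min hk31 hk32, fun k3 hk3 hk3' => ?_⟩
  obtain ⟨p, θ, w, b1, c1, d1, hθ, hw, hb1, hc1, hd1, H⟩ :=
    H k3 hk3 (hk3'.trans (min_le_left _ _))
  obtain ⟨q, b2, c2, d2, hb2, hc2, hd2, HG⟩ := HG k3 hk3 (hk3'.trans (min_le_right _ _))
  have hq2 : 0 < e0 / (4 * (b2 + 1)) := by positivity
  obtain ⟨M0, hM0, HM⟩ := gen_bd q he0
  refine ⟨e0 * θ / 2 - w, b1 + b2 * θ, min (min c1 c2) (e0 / (4 * (b2 + 1))),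
    min (min d1 d2) (e0 / (4 * (b2 + 1))), by linarith, by positivity,
    lt_min (lt_min hc1 hc2) hq2, lt_min (lt_min hd1 hd2) hq2,
    fun c hc hcc d hd hdd Kt e cP L hK he hcP hL CD hCD => ?_⟩
  have hcc1 : c ≤ c1 := hcc.trans ((min_le_left _ _).trans (min_le_left _ _))
  have hcc2 : c ≤ c2 := hcc.trans ((min_le_left _ _).trans (min_le_right _ _))
  have hcc3 : c ≤ e0 / (4 * (b2 + 1)) := hcc.trans (min_le_right _ _)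
  have hdd1 : d ≤ d1 := hdd.trans ((min_le_left _ _).trans (min_le_left _ _))
  have hdd2 : d ≤ d2 := hdd.trans ((min_le_left _ _).trans (min_le_right _ _))
  have hdd3 : d ≤ e0 / (4 * (b2 + 1)) := hdd.trans (min_le_right _ _)
  obtain ⟨B0, hB0, HG⟩ := HG c hc hcc2 d hd hdd2 Kt e cP L hK he hcP hL CD hCD
  obtain ⟨C, hC, H⟩ := H c hc hcc1 d hd hdd1 Kt e cP L hK he hcP hL CD hCD (B0 * M0)
    (one_le_mul_of_one_le_of_one_le hB0 hM0)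
  have hη : 0 < e0 * θ / 2 := by positivity
  have hBB : (0 : ℝ) ≤ B0 + 1 := by linarith
  obtain ⟨C2, hC2, H2⟩ := gen_num p q (e0 := e0) hθ hη hBB
  refine ⟨C * C2, by positivity, ?_⟩
  intro t ht ht1 n ez F1 F2 F3 h1 h3 h2 o ho K hKn x ι _ _ s r U g u v hs hr hcls A b' C' hD sg
    hsg h hh j hj qq hqq
  have hr0 : 0 < r := by linarith
  have hρ : 1 ≤ r / t := by
    rw [le_div_iff₀ ht]
    linarith
  have hρ0 : 0 < r / t := by linarith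
  have hlog : 0 ≤ Real.log (r / t) := Real.log_nonneg hρ
  obtain ⟨N, R, κ, E, hR, HR⟩ := HG t ht ht1 n ez F1 F2 F3 h1 h3 h2 o ho K hKn x ι s r U g u v hs hr
    hcls A b' C' hD sg hsg
  show T ι K (cx K x) (sl ((⟨a, e0, k8, k3, c, d, Kt, e, cP, L, CD, t⟩ : H401.Num).al U K) o K
    (cx K x) sg ((⟨a, e0, k8, k3, c, d, Kt, e, cP, L, CD, t⟩ : H401.Num).lam s r) u) A b' C' h j
      qq ≤ _
  rw [hR]
  refine (hT ι K (cx K x) (range N) R A b' C' h j qq).trans ?_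
  have hW0 : 0 < t ^ (-(b2 * (c + d))) := Real.rpow_pos_of_pos ht _
  have hinv : (t / r) ^ e0 = (r / t) ^ (-e0) := by
    rw [Real.rpow_neg hρ0.le, ← Real.inv_rpow hρ0.le, inv_div]
  have hWρ : t ^ (-(b2 * (c + d))) ≤ (r / t) ^ (e0 / 2) := W_le ht hr ht1 hb2 hc hd hcc3 hdd3
  have hone : ∀ g' ∈ range N, T ι K (cx K x) (R g') A b' C' h j qq ≤
      C * (t * (r / t) ^ w * t ^ (-(b1 * (c + d))) * s ^ (5 / 4 : ℝ) * √ez * 8 ^ K) *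
        ((1 + Real.log (κ g') + Real.log (r / t)) ^ p * E g' ^ θ) := by
    intro g' hg'
    obtain ⟨hκ, _, hE0, hEB, hP⟩ := HR g' (mem_range.1 hg')
    have hEM : E g' ≤ B0 * M0 := by
      refine hEB.trans (mul_le_mul_of_nonneg_left ?_ (by linarith))
      rw [hinv]
      exact HM (r / t) hρ _ hW0.le hWρ g'
    have h6 := H t ht ht1 n ez F1 F2 F3 h1 h3 h2 o ho K hKn x ι s r U g u v hs hr hcls A b' C' hD
      (R g') (κ g') (E g') hκ hE0 hEM hP h hh j hj qq hqq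
    refine h6.trans (le_of_eq ?_)
    ring
  refine (sum_le_sum hone).trans ?_
  rw [← mul_sum]
  have h7 := H2 (r / t) hρ (t ^ (-(b2 * (c + d)))) hW0.le N E
    (fun g' => 1 + Real.log (κ g') + Real.log (r / t)) (fun g' hg' => (HR g' hg').2.2.1.le)
    (fun g' hg' => by
      have := Real.log_nonneg (HR g' hg').1
      linarith)
    (fun g' hg' => by
      have k1 := (HR g' hg').2.1
      have k2 : (0 : ℝ) ≤ g' := Nat.cast_nonneg g'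
      nlinarith)
    (fun g' hg' => by
      have k1 := (HR g' hg').2.2.2.1
      rw [hinv] at k1
      refine k1.trans (mul_le_mul_of_nonneg_right (by linarith) ?_)
      have : 0 < (r / t) ^ (-e0) := Real.rpow_pos_of_pos hρ0 _
      positivity)
  have h8 : 0 ≤ C * (t * (r / t) ^ w * t ^ (-(b1 * (c + d))) * s ^ (5 / 4 : ℝ) * √ez * 8 ^ K) := by
    have k1 : 0 < (r / t) ^ w := Real.rpow_pos_of_pos hρ0 _
    have k2 : 0 < t ^ (-(b1 * (c + d))) := Real.rpow_pos_of_pos ht _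
    have k3 : 0 < s ^ (5 / 4 : ℝ) := Real.rpow_pos_of_pos hs _
    have k4 : 0 ≤ √ez := Real.sqrt_nonneg _
    positivity
  exact (mul_le_mul_of_nonneg_left h7 h8).trans (le_of_eq (fin_eq ht hr))

/-- **The node forms of the flow part from one slot.** -/
theorem leafM_of_P {P : SlP}
    (H : PriceP P FD fun _ι _ _ K M R A b C h j e => FM1 K M R A b C h j e) (HG : GenP P FD) :
    LeafM :=
  leafM_of (partG_of_P subT_FM1 H HG)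

end

end Vale.Agent.P141.H939
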