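import Vale.Agent.P141.H972.AsmPM
import Vale.Agent.P141.H636.FibF
import Vale.Agent.P141.H277.NumQG
import Vale.Agent.P141.H454.PhiZ
import Vale.Agent.P141.H675.PhiX
import Vale.Agent.P141.H108.PhA
import Vale.Agent.P141.H377.PhCap
import Vale.Agent.P141.H565.PhV1
import Vale.Agent.P141.H796.PhV2
import Vale.Agent.P141.H677.SlotFin
import Vale.Agent.P141.H124.AfRaw
import Vale.Agent.P141.H224.EnRaw
import Vale.Agent.P141.H401.Fin9

/-!
# P141, line (A), top: the price of the flow part from the two open leaves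

* `slotNum : SlotNum H636.FDU` : the numbers of every slot;
* `phiX_bo : PartS H636.FDU PhBo → PartS H636.FDU PhiX`;
* `bunN_FDU`, **`priceB_of_two`** : the price of `fM` from `PhBo` and `PhiC`;
* `finalAll_of_three` : every `r < 2` from `LBCg`, `PhBo` and `PhiC`.
-/

namespace Vale.Agent.P141.H939.Top

open Vale.Agent.P141.H677 Vale.Agent.P141.H677.Sk
open Vale.Agent.P141.H186.PS
open Vale.Agent.P141.H277.Phi
open Vale.Agent.P141.H675.PX
open Vale.Agent.P141.H408 (LBCg)
open Vale.Agent.P141.H401 (Bun)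
open Vale.Agent.P141.H972 (BunN bunN_FD priceB_of_num NumQ PCA PBC PZB)

noncomputable section

theorem bunN_Fb {D : Bun} (H : BunN D) : BunN (H636.Fb D) := by
  intro ι _ _ q n ez F1 F2 F3 o K x s r U g u v A b C hD
  have h := H ι q n ez F1 F2 F3 o K x s r U g u v A b C hD.2.2
  exact ⟨h.1, fun z hz hez => ⟨hD.1, hD.2.1, h.2 z hz hez⟩⟩

theorem bunN_FDU : BunN H636.FDU := bunN_Fb bunN_FD

/-- **The numbers of every slot.** -/
theorem slotNum : SlotNum H636.FDU :=
  slotNum_FDU H224.fld_en H795.FQ.fld_q H690.Q2F.fld_q2 H124.fld_af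
    (H627.fld_qL.toR mono_FQL) H690.Q2F.fld_q2L H124.fld_afL

theorem phiX_bo (HB : PartS H636.FDU PhBo) : PartS H636.FDU PhiX :=
  phiX_of H108.phA HB H377.phCap H565.phV1 H796.phV2

/-- **The price of `fM` from the two open leaves.** -/
theorem priceB_of_two (HB : PartS H636.FDU PhBo) (HC : PartS H636.FDU PhiC) :
    H939.PriceB H636.FDU fun _ι _ _ K M R A b C h j e => FM1 K M R A b C h j e :=
  priceB_of_num bunN_FDU (numQ_PCA H454.PhiZ.phiZ_FDU slotNum) (numQ_PBC (phiX_bo HB) slotNum)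
    (numQ_PZB HC slotNum)

/-- **Every `r < 2` from three open statements.** -/
theorem finalAll_of_three (h3 : LBCg) (HB : PartS H636.FDU PhBo) (HC : PartS H636.FDU PhiC) :
    H397.FinalAll :=
  H401.finalAll_of_LBCg_PriceB h3 (priceB_of_two HB HC)

end

end Vale.Agent.P141.H939.Top
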